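import Vale.Agent.P272.K.C3.Iface
import Vale.Agent.P272.K.Inv.Hess
import Vale.Agent.P272.K.N.MaxP
import Vale.Agent.P272.K.C2.PosLin
import Mathlib.Analysis.Calculus.BumpFunction.FiniteDimension

/-! Cutoff / maximum principle half of the local Calabi estimate. -/

open scoped Manifold ContDiff ComplexOrder Topology
open Metric

set_option linter.all false

noncomputable section

namespace Vale.Agent.P272.K.C3

variable {n : ℕ} {z : Cm n}

lemma two_le_inf : (2 : WithTop ℕ∞) ≤ ∞ := by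
  exact WithTop.coe_le_coe.2 le_top

/-- the sesquilinear form of `G` -/
def qf (G : Matrix (Fin n) (Fin n) ℂ) (a b : Fin n → ℂ) : ℂ :=
  ∑ i, ∑ j, G j i * a i * cj (b j)

lemma dzb_real {f : Cm n → ℝ} (hf : DifferentiableAt ℝ (fun y => (f y : ℂ)) z) (k : Fin n) :
    dzb k (fun y => (f y : ℂ)) z = cj (dz k (fun y => (f y : ℂ)) z) := by
  rw [← dzb_cj hf]; simp [cj]

lemma cHess_mul' {f g : Cm n → ℝ} (hf : ContDiffAt ℝ 2 f z) (hg : ContDiffAt ℝ 2 g z) (j k : Fin n) :
    cHess (fun y => f y * g y) z j k = (f z : ℂ) * cHess g z j k + (g z : ℂ) * cHess f z j k +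
      dz j (fun y => (f y : ℂ)) z * cj (dz k (fun y => (g y : ℂ)) z) +
      dz j (fun y => (g y : ℂ)) z * cj (dz k (fun y => (f y : ℂ)) z) := by
  have hF : ContDiffAt ℝ 2 (fun y => (f y : ℂ)) z := ofReal_contDiffAt hf
  have hG : ContDiffAt ℝ 2 (fun y => (g y : ℂ)) z := ofReal_contDiffAt hg
  rw [cHess_apply, cHess_apply, cHess_apply]
  have h1 : dzb k (fun y => ((f y * g y : ℝ) : ℂ)) =ᶠ[𝓝 z]
      fun y => dzb k (fun y => (f y : ℂ)) y * (g y : ℂ) + (f y : ℂ) * dzb k (fun y => (g y : ℂ)) y := by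
    filter_upwards [hF.eventually (by simp), hG.eventually (by simp)] with y hy hy2
    rw [← dzb_mul (hy.differentiableAt (by norm_num)) (hy2.differentiableAt (by norm_num))]
    simp
  have dF := hF.differentiableAt (by norm_num)
  have dG := hG.differentiableAt (by norm_num)
  have e1 := dz_add (i := j) (f := fun y => dzb k (fun y => (f y : ℂ)) y * (g y : ℂ))
    (g := fun y => (f y : ℂ) * dzb k (fun y => (g y : ℂ)) y)
    ((differentiableAt_dzb hF).mul dG) (dF.mul (differentiableAt_dzb hG))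
  have e2 := dz_mul (i := j) (differentiableAt_dzb (i := k) hF) dG
  have e3 := dz_mul (i := j) dF (differentiableAt_dzb (i := k) hG)
  rw [dz_congr h1, e1, e2, e3, dzb_real dF, dzb_real dG]
  ring

lemma trace_eq_sum (G M : Matrix (Fin n) (Fin n) ℂ) :
    (G * M).trace = ∑ i, ∑ j, G j i * M i j := by
  rw [Matrix.trace, Finset.sum_comm]
  simp [Matrix.diag, Matrix.mul_apply]

lemma qf_conj {G : Matrix (Fin n) (Fin n) ℂ} (hG : G.IsHermitian) (a b : Fin n → ℂ) :
    cj (qf G a b) = qf G b a := by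
  unfold qf
  simp only [cj, map_sum, map_mul]
  rw [Finset.sum_comm]
  refine Finset.sum_congr rfl fun i _ => Finset.sum_congr rfl fun j _ => ?_
  have : cj (G i j) = G j i := by
    have := hG.apply j i
    simpa [cj] using this
  simp only [cj] at this ⊢
  rw [this, Complex.conj_conj]; ring

lemma qf_nonneg {G : Matrix (Fin n) (Fin n) ℂ} (hG : G.PosSemidef) (a : Fin n → ℂ) :
    0 ≤ (qf G a a).re := by
  have h := hG.re_dotProduct_nonneg (fun i => a i)
  have e : qf G a a = star a ⬝ᵥ (G.mulVec a) := by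
    unfold qf
    simp only [dotProduct, Matrix.mulVec, Pi.star_apply, Finset.mul_sum]
    rw [Finset.sum_comm]
    refine Finset.sum_congr rfl fun i _ => Finset.sum_congr rfl fun j _ => ?_
    simp only [cj, RCLike.star_def]; ring
  rw [e]; exact h

lemma qf_add_smul (G : Matrix (Fin n) (Fin n) ℂ) (hG : G.IsHermitian) (a b : Fin n → ℂ) (t : ℝ) :
    (qf G (fun i => (t : ℂ) * a i + b i) (fun i => (t : ℂ) * a i + b i)).re =
      (qf G a a).re * (t * t) + (2 * (qf G a b).re) * t + (qf G b b).re := by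
  have h1 : qf G (fun i => (t : ℂ) * a i + b i) (fun i => (t : ℂ) * a i + b i) =
      (t : ℂ) * t * qf G a a + t * qf G a b + t * qf G b a + qf G b b := by
    unfold qf
    simp only [Finset.mul_sum, ← Finset.sum_add_distrib]
    refine Finset.sum_congr rfl fun i _ => Finset.sum_congr rfl fun j _ => ?_
    simp only [cj, map_add, map_mul, Complex.conj_ofReal]; ring
  have h2 : (qf G b a).re = (qf G a b).re := by
    rw [← qf_conj hG a b]; simp [cj]
  rw [h1]
  have h3 : ((t : ℂ) * t * qf G a a).re = (qf G a a).re * (t * t) := by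
    rw [← Complex.ofReal_mul, Complex.re_ofReal_mul]; ring
  rw [Complex.add_re, Complex.add_re, Complex.add_re, h3, Complex.re_ofReal_mul,
    Complex.re_ofReal_mul, h2]
  ring

lemma qf_cs {G : Matrix (Fin n) (Fin n) ℂ} (hG : G.PosSemidef) (a b : Fin n → ℂ) :
    (qf G a b).re ^ 2 ≤ (qf G a a).re * (qf G b b).re := by
  have h := discrim_le_zero (a := (qf G a a).re) (b := 2 * (qf G a b).re) (c := (qf G b b).re)
    fun t => by
      have := qf_nonneg hG (fun i => (t : ℂ) * a i + b i)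
      rw [qf_add_smul G hG.1 a b t] at this
      exact this
  unfold discrim at h
  nlinarith

lemma qf_bound {G : Matrix (Fin n) (Fin n) ℂ} {B M : ℝ} (hG : ∀ i j, ‖G i j‖ ≤ B) (a : Fin n → ℂ)
    (ha : ∀ i, ‖a i‖ ≤ M) : (qf G a a).re ≤ (n : ℝ) * (n * (B * M * M)) := by
  refine (Complex.re_le_norm _).trans ?_
  unfold qf
  refine (norm_sum_le _ _).trans ?_
  refine (Finset.sum_le_card_nsmul _ _ ((n : ℝ) * (B * M * M)) fun i _ => ?_).trans (by simp)
  refine (norm_sum_le _ _).trans ?_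
  refine (Finset.sum_le_card_nsmul _ _ (B * M * M) fun j _ => ?_).trans (by simp)
  rw [norm_mul, norm_mul]
  have h1 : ‖cj (a j)‖ = ‖a j‖ := by simp [cj]
  rw [h1]
  have hB : 0 ≤ B := (norm_nonneg _).trans (hG j i)
  have hM : 0 ≤ M := (norm_nonneg _).trans (ha i)
  exact mul_le_mul (mul_le_mul (hG j i) (ha i) (norm_nonneg _) hB) (ha j) (norm_nonneg _)
    (mul_nonneg hB hM)

lemma trace_bound {G H : Matrix (Fin n) (Fin n) ℂ} {B M : ℝ} (hG : ∀ i j, ‖G i j‖ ≤ B)
    (hH : ∀ i j, ‖H i j‖ ≤ M) : -((n : ℝ) * (n * (B * M))) ≤ (G * H).trace.re := by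
  have h : ‖(G * H).trace‖ ≤ (n : ℝ) * (n * (B * M)) := by
    rw [trace_eq_sum]
    refine (norm_sum_le _ _).trans ?_
    refine (Finset.sum_le_card_nsmul _ _ ((n : ℝ) * (B * M)) fun i _ => ?_).trans (by simp)
    refine (norm_sum_le _ _).trans ?_
    refine (Finset.sum_le_card_nsmul _ _ (B * M) fun j _ => ?_).trans (by simp)
    rw [norm_mul]
    exact mul_le_mul (hG j i) (hH i j) (norm_nonneg _) ((norm_nonneg _).trans (hG j i))
  have := (abs_le.1 ((Complex.abs_re_le_norm _).trans h)).1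
  linarith

/-- `Lap (χ² S)` from below -/
lemma lap_cut {G : Matrix (Fin n) (Fin n) ℂ} {B M₃ M₄ : ℝ} (hG : G.PosSemidef)
    (hGB : ∀ i j, ‖G i j‖ ≤ B) {φ S : Cm n → ℝ} {P : ℝ} (hφ : ContDiffAt ℝ ∞ φ z)
    (hS : ContDiffAt ℝ ∞ S z) (hS0 : 0 ≤ S z) (hP : 0 ≤ P) (hB : 0 ≤ B)
    (h1 : P - B * (S z + 1) ≤ (G * cHess S z).trace.re)
    (h2 : (∑ i, ∑ j, G j i * dz i (fun y => (S y : ℂ)) z *
        (starRingEnd ℂ) (dz j (fun y => (S y : ℂ)) z)).re ≤ B * S z * P)
    (h3 : ∀ i, ‖dz i (fun y => (φ y : ℂ)) z‖ ≤ M₃)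
    (h4 : ∀ i j, ‖cHess (fun y => φ y * φ y) z i j‖ ≤ M₄) (hφ1 : |φ z| ≤ 1) :
    -(B + (n : ℝ) * (n * (B * M₄)) + 4 * ((n : ℝ) * (n * (B * M₃ * M₃))) * B) * (S z + 1) ≤
      (G * cHess (fun y => (φ y * φ y) * S y) z).trace.re := by
  have hφ2 : ContDiffAt ℝ 2 φ z := hφ.of_le two_le_inf
  have hS2 : ContDiffAt ℝ 2 S z := hS.of_le two_le_inf
  have hφC : DifferentiableAt ℝ (fun y => (φ y : ℂ)) z :=
    (ofReal_contDiffAt hφ2).differentiableAt (by norm_num)
  set a : Fin n → ℂ := fun i => dz i (fun y => (φ y : ℂ)) z with ha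
  set b : Fin n → ℂ := fun i => dz i (fun y => (S y : ℂ)) z with hb
  have hdd : ∀ i, dz i (fun y => ((φ y * φ y : ℝ) : ℂ)) z = 2 * (φ z : ℂ) * a i := by
    intro i
    have : (fun y => ((φ y * φ y : ℝ) : ℂ)) = fun y => (φ y : ℂ) * (φ y : ℂ) := by
      funext y; push_cast; ring
    rw [this, dz_mul hφC hφC]; simp only [ha]; ring
  have hb2 : (qf G b b).re ≤ B * S z * P := by simpa [qf, hb, cj] using h2
  have key : (G * cHess (fun y => (φ y * φ y) * S y) z).trace =
      ((φ z * φ z : ℝ) : ℂ) * (G * cHess S z).trace +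
      (S z : ℂ) * (G * cHess (fun y => φ y * φ y) z).trace +
      (2 * (φ z : ℝ) : ℝ) * qf G a b + (2 * (φ z : ℝ) : ℝ) * qf G b a := by
    rw [trace_eq_sum, trace_eq_sum, trace_eq_sum]
    unfold qf
    simp only [Finset.mul_sum, ← Finset.sum_add_distrib]
    refine Finset.sum_congr rfl fun i _ => Finset.sum_congr rfl fun j _ => ?_
    rw [cHess_mul' (f := fun y => φ y * φ y) (hφ2.mul hφ2) hS2, hdd, hdd]
    simp only [cj, map_mul, Complex.conj_ofReal, map_ofNat]
    simp only [hb]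
    push_cast
    ring
  have hre : (G * cHess (fun y => (φ y * φ y) * S y) z).trace.re =
      (φ z * φ z) * (G * cHess S z).trace.re +
      S z * (G * cHess (fun y => φ y * φ y) z).trace.re + 4 * φ z * (qf G a b).re := by
    rw [key]
    have h5 : (qf G b a).re = (qf G a b).re := by rw [← qf_conj hG.1 a b]; simp [cj]
    rw [Complex.add_re, Complex.add_re, Complex.add_re, Complex.re_ofReal_mul,
      Complex.re_ofReal_mul, Complex.re_ofReal_mul, Complex.re_ofReal_mul, h5]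
    ring
  rw [hre]
  have hcs := qf_cs hG a b
  set M₂ := (n : ℝ) * (n * (B * M₃ * M₃)) with hM₂
  have hqa : (qf G a a).re ≤ M₂ := qf_bound hGB a h3
  have hqa0 := qf_nonneg hG a
  have hM₂0 : 0 ≤ M₂ := hqa0.trans hqa
  have hqb0 := qf_nonneg hG b
  have hBSP : 0 ≤ B * S z * P := hqb0.trans hb2
  have h6 : (qf G a b).re ^ 2 ≤ M₂ * (B * S z * P) :=
    hcs.trans (mul_le_mul hqa hb2 hqb0 hM₂0)
  have hφ3 : φ z * φ z ≤ 1 := by
    have := abs_le.1 hφ1; nlinarith
  have hφ4 : 0 ≤ φ z * φ z := mul_self_nonneg _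
  have h7 : |4 * φ z * (qf G a b).re| ≤ φ z * φ z * P + 4 * M₂ * (B * S z) := by
    apply abs_le_of_sq_le_sq
    · have e1 : (4 * φ z * (qf G a b).re) ^ 2 = 16 * (φ z * φ z) * (qf G a b).re ^ 2 := by ring
      have e2 : 16 * (φ z * φ z) * (qf G a b).re ^ 2 ≤ 16 * (φ z * φ z) * (M₂ * (B * S z * P)) :=
        mul_le_mul_of_nonneg_left h6 (by positivity)
      have e3 : (φ z * φ z * P + 4 * M₂ * (B * S z)) ^ 2 - 16 * (φ z * φ z) * (M₂ * (B * S z * P)) =
          (φ z * φ z * P - 4 * M₂ * (B * S z)) ^ 2 := by ring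
      nlinarith [sq_nonneg (φ z * φ z * P - 4 * M₂ * (B * S z))]
    · have : 0 ≤ φ z * φ z * P := mul_nonneg hφ4 hP
      have : 0 ≤ 4 * M₂ * (B * S z) := by positivity
      linarith
  have h8 := (abs_le.1 h7).1
  have h9 := trace_bound hGB h4
  have h10 : S z * (-((n : ℝ) * (n * (B * M₄)))) ≤ S z * (G * cHess (fun y => φ y * φ y) z).trace.re :=
    mul_le_mul_of_nonneg_left h9 hS0
  have h11 : (φ z * φ z) * (P - B * (S z + 1)) ≤ (φ z * φ z) * (G * cHess S z).trace.re :=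
    mul_le_mul_of_nonneg_left h1 hφ4
  have h12 : (φ z * φ z) * (B * (S z + 1)) ≤ 1 * (B * (S z + 1)) :=
    mul_le_mul_of_nonneg_right hφ3 (by positivity)
  have hM4 : 0 ≤ (n : ℝ) * (n * (B * M₄)) := by
    rcases Nat.eq_zero_or_pos n with h0 | h0
    · subst h0; simp
    · have i0 : Fin n := ⟨0, h0⟩
      have : 0 ≤ M₄ := (norm_nonneg _).trans (h4 i0 i0)
      positivity
  have h13 : 0 ≤ 4 * M₂ * B := by positivity
  nlinarith

theorem cutoff : CutoffStatement := by
  intro n p r R B hr hrR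
  let φ : ContDiffBump p := ⟨r, (r + R) / 2, hr, by linarith⟩
  set R₁ := (r + R) / 2 with hR₁
  have hR₁R : R₁ < R := by rw [hR₁]; linarith
  have hrR₁ : r < R₁ := by rw [hR₁]; linarith
  have hφs : ContDiff ℝ ∞ (φ : Cm n → ℝ) := φ.contDiff
  have hφC : ContDiff ℝ ∞ (fun y => ((φ y : ℝ) : ℂ)) := Complex.ofRealCLM.contDiff.comp hφs
  have hcpt : IsCompact (closedBall p R₁) := isCompact_closedBall p R₁
  have hd : ∀ i, Continuous (dz i (fun y => ((φ y : ℝ) : ℂ))) := by
    intro i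
    rw [continuous_iff_continuousAt]
    intro y
    exact (contDiffAt_dz (m := 0) (hφC.contDiffAt (x := y)) (by simp)).continuousAt
  have hH : ∀ i j, Continuous (fun y => cHess (fun y => φ y * φ y) y i j) := by
    intro i j
    rw [continuous_iff_continuousAt]
    intro y
    have h0 : ContDiff ℝ ∞ (fun y => ((φ y * φ y : ℝ) : ℂ)) :=
      Complex.ofRealCLM.contDiff.comp (hφs.mul hφs)
    have h1 : ContDiffAt ℝ 1 (dzb j fun y => ((φ y * φ y : ℝ) : ℂ)) y :=
      contDiffAt_dzb (h0.contDiffAt (x := y)) (by norm_num; exact two_le_inf)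
    exact (contDiffAt_dz (m := 0) h1 (by simp)).continuousAt
  have hM3 : ∃ M, ∀ y ∈ closedBall p R₁, ∀ i, ‖dz i (fun y => ((φ y : ℝ) : ℂ)) y‖ ≤ M := by
    have : ∀ i, ∃ M, ∀ y ∈ closedBall p R₁, ‖dz i (fun y => ((φ y : ℝ) : ℂ)) y‖ ≤ M :=
      fun i => hcpt.exists_bound_of_continuousOn (hd i).continuousOn
    choose M hM using this
    refine ⟨∑ i, |M i|, fun y hy i => ((hM i y hy).trans (le_abs_self _)).trans ?_⟩
    exact Finset.single_le_sum (f := fun i => |M i|) (fun _ _ => abs_nonneg _) (Finset.mem_univ i)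
  have hM4 : ∃ M, ∀ y ∈ closedBall p R₁, ∀ i j, ‖cHess (fun y => φ y * φ y) y i j‖ ≤ M := by
    have : ∀ i j, ∃ M, ∀ y ∈ closedBall p R₁, ‖cHess (fun y => φ y * φ y) y i j‖ ≤ M :=
      fun i j => hcpt.exists_bound_of_continuousOn (hH i j).continuousOn
    choose M hM using this
    refine ⟨∑ i, ∑ j, |M i j|, fun y hy i j => ((hM i j y hy).trans (le_abs_self _)).trans ?_⟩
    refine (Finset.single_le_sum (f := fun j => |M i j|) (fun _ _ => abs_nonneg _)
      (Finset.mem_univ j)).trans ?_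
    exact Finset.single_le_sum (f := fun i => ∑ j, |M i j|)
      (fun _ _ => Finset.sum_nonneg fun _ _ => abs_nonneg _) (Finset.mem_univ i)
  obtain ⟨M₃, hM₃⟩ := hM3
  obtain ⟨M₄, hM₄⟩ := hM4
  set B' := B + (n : ℝ) * (n * (B * M₄)) + 4 * ((n : ℝ) * (n * (B * M₃ * M₃))) * B with hB'
  refine ⟨|B'| + 3 * (|B'| + 1) * |B|, ?_⟩
  intro G S T P hG hGB hS hT hS0 hP0 hTB hLS hLT hdS z hz
  set A := |B'| + 1 with hA
  have hA0 : 0 < A := by positivity
  have hsub : closedBall p R₁ ⊆ ball p R := closedBall_subset_ball hR₁R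
  have hpR : p ∈ ball p R := mem_ball_self (by linarith)
  have hB0 : 0 ≤ B := (abs_nonneg _).trans (hTB p hpR)
  have hBa : |B| = B := abs_of_nonneg hB0
  let F : Cm n → ℝ := fun y => (φ y * φ y) * S y + A * T y
  have hFc : ContinuousOn F (closedBall p R₁) := by
    intro y hy
    have h1 := (hS y (hsub hy)).continuousAt
    have h2 := (hT y (hsub hy)).continuousAt
    exact (((hφs.continuous.continuousAt.mul hφs.continuous.continuousAt).mul h1).add
      (continuousAt_const.mul h2)).continuousWithinAt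
  obtain ⟨z₀, hz₀, hmax⟩ := hcpt.exists_isMaxOn ⟨p, mem_closedBall_self (by linarith)⟩ hFc
  have hz₀R := hsub hz₀
  have hzR₁ : z ∈ closedBall p R₁ := closedBall_subset_closedBall hrR₁.le hz
  have hφz : φ z = 1 := φ.one_of_mem_closedBall hz
  have hFz : S z = F z - A * T z := by simp [F, hφz]
  have hle : F z ≤ F z₀ := hmax hzR₁
  have hTz := (abs_le.1 (hTB z (hsub hzR₁)))
  have hTz₀ := (abs_le.1 (hTB z₀ hz₀R))
  have hφ0 : ∀ y, |φ y| ≤ 1 := fun y => by
    rw [abs_of_nonneg φ.nonneg]; exact φ.le_one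
  have hφsq : φ z₀ * φ z₀ ≤ 1 := by
    have h1 := φ.le_one (x := z₀); have h2 := φ.nonneg (x := z₀); nlinarith
  have hφsq0 : 0 ≤ φ z₀ * φ z₀ := mul_self_nonneg _
  have hAT : A * T z₀ ≤ A * B := mul_le_mul_of_nonneg_left hTz₀.2 hA0.le
  have hAT2 : -(A * B) ≤ A * T z := by nlinarith [hTz.1]
  have habs := le_abs_self B'
  have hclaim : F z₀ ≤ |B'| + 2 * A * B := by
    by_cases hin : dist z₀ p < R₁
    · have hloc : IsLocalMax F z₀ := by
        have : ball p R₁ ∈ 𝓝 z₀ := isOpen_ball.mem_nhds hin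
        filter_upwards [this] with y hy
        exact hmax (ball_subset_closedBall hy)
      have hSz := hS z₀ hz₀R
      have hTz' := hT z₀ hz₀R
      have hφz0 : ContDiffAt ℝ ∞ (φ : Cm n → ℝ) z₀ := hφs.contDiffAt
      have hc1 : ContDiffAt ℝ ∞ (fun y => (φ y * φ y) * S y) z₀ := (hφz0.mul hφz0).mul hSz
      have hF2 : ContDiffAt ℝ 2 F z₀ :=
        (hc1.add (contDiffAt_const.mul hTz')).of_le two_le_inf
      have hneg := Vale.Agent.P272.K.N.neg_cHess_posSemidef hF2 hloc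
      have htr : (G z₀ * cHess F z₀).trace.re ≤ 0 := by
        have h5 : 0 ≤ (G z₀ * -cHess F z₀).trace.re :=
          (Complex.le_def.1 (Vale.Agent.P272.K.C2.trace_mul_nonneg (hG z₀ hz₀R) hneg)).1
        have h6 : (G z₀ * -cHess F z₀).trace = -(G z₀ * cHess F z₀).trace := by
          rw [mul_neg, Matrix.trace_neg]
        rw [h6, Complex.neg_re] at h5
        linarith
      have hsplit : cHess F z₀ = cHess (fun y => (φ y * φ y) * S y) z₀ + (A : ℂ) • cHess T z₀ := by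
        have h7 := cHess_add (z := z₀) (f := fun y => (φ y * φ y) * S y) (g := fun y => A * T y)
          (hc1.of_le two_le_inf)
          ((contDiffAt_const.mul hTz').of_le two_le_inf)
        have h8 := cHess_const_mul (z := z₀) A (hTz'.of_le two_le_inf :
          ContDiffAt ℝ 2 T z₀)
        rw [h8] at h7
        exact h7
      rw [hsplit, mul_add, Matrix.trace_add, Complex.add_re, Matrix.mul_smul, Matrix.trace_smul,
        smul_eq_mul, Complex.re_ofReal_mul] at htr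
      have hlow := lap_cut (z := z₀) (M₃ := M₃) (M₄ := M₄) (hG z₀ hz₀R) (hGB z₀ hz₀R) hφz0 hSz
        (hS0 z₀ hz₀R) (hP0 z₀ hz₀R) hB0 (hLS z₀ hz₀R) (hdS z₀ hz₀R) (fun i => hM₃ z₀ hz₀ i)
        (fun i j => hM₄ z₀ hz₀ i j) (hφ0 z₀)
      have hlT := mul_le_mul_of_nonneg_left (hLT z₀ hz₀R) hA0.le
      have hS00 := hS0 z₀ hz₀R
      have h9 : -B' * (S z₀ + 1) + A * (S z₀ - B) ≤ 0 := by
        rw [hB']; linarith
      have h10 : -|B'| * (S z₀ + 1) ≤ -B' * (S z₀ + 1) := by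
        have : 0 ≤ S z₀ + 1 := by linarith
        nlinarith
      have h11 : S z₀ ≤ |B'| + A * B := by
        rw [hA] at h9 ⊢; nlinarith
      have h12 : φ z₀ * φ z₀ * S z₀ ≤ 1 * S z₀ := mul_le_mul_of_nonneg_right hφsq hS00
      show (φ z₀ * φ z₀) * S z₀ + A * T z₀ ≤ _
      linarith
    · have hφz₀ : φ z₀ = 0 := by
        apply φ.zero_of_le_dist
        exact not_lt.1 hin
      show (φ z₀ * φ z₀) * S z₀ + A * T z₀ ≤ _
      rw [hφz₀]
      have : 0 ≤ |B'| := abs_nonneg _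
      have : 0 ≤ A * B := mul_nonneg hA0.le hB0
      linarith
  rw [hFz, hBa]
  have : |B'| + 3 * (|B'| + 1) * B = |B'| + 2 * A * B + A * B := by rw [hA]; ring
  rw [this]
  linarith

end Vale.Agent.P272.K.C3
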