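import Vale.Agent.P272.K.C3.Main
import Vale.Agent.P272.K.C3.Cutoff

/-! Block C3: the local Calabi estimate. -/

namespace Vale.Agent.P272.K.C3

/-- the local Calabi estimate -/
theorem calabi : CalabiStatement := calabi_of_cutoff cutoff

end Vale.Agent.P272.K.C3
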