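import Vale.Agent.P272.K.Stmt

/-! Block C3: interface statements (no proofs here). -/

open scoped Manifold ContDiff ComplexOrder
open Metric

noncomputable section

namespace Vale.Agent.P272.K.C3

/-- cutoff / maximum principle half of the local Calabi estimate (scalar statement) -/
def CutoffStatement : Prop :=
  ∀ (n : ℕ) (p : Cm n) (r R B : ℝ) (_ : 0 < r) (_ : r < R), ∃ C : ℝ,
    ∀ (G : Cm n → Matrix (Fin n) (Fin n) ℂ) (S T P : Cm n → ℝ),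
      (∀ z ∈ ball p R, (G z).PosSemidef) →
      (∀ z ∈ ball p R, ∀ i j, ‖G z i j‖ ≤ B) →
      (∀ z ∈ ball p R, ContDiffAt ℝ ∞ S z) → (∀ z ∈ ball p R, ContDiffAt ℝ ∞ T z) →
      (∀ z ∈ ball p R, 0 ≤ S z) → (∀ z ∈ ball p R, 0 ≤ P z) → (∀ z ∈ ball p R, |T z| ≤ B) →
      (∀ z ∈ ball p R, P z - B * (S z + 1) ≤ (G z * cHess S z).trace.re) →
      (∀ z ∈ ball p R, S z - B ≤ (G z * cHess T z).trace.re) →
      (∀ z ∈ ball p R, (∑ i, ∑ j, G z j i * dz i (fun y => (S y : ℂ)) z *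
        (starRingEnd ℂ) (dz j (fun y => (S y : ℂ)) z)).re ≤ B * S z * P z) →
      ∀ z ∈ closedBall p r, S z ≤ C

/-- the local Calabi estimate -/
def CalabiStatement : Prop :=
  ∀ (n : ℕ) (p : Cm n) (r R lam Lam C₀ : ℝ) (_ : 0 < r) (_ : r < R) (_ : 0 < lam), ∃ C : ℝ,
    ∀ K Θ : Cm n → Matrix (Fin n) (Fin n) ℂ,
      (∀ z ∈ ball p R, ∀ i j, ContDiffAt ℝ ∞ (fun y => K y i j) z) →
      (∀ z ∈ ball p R, (K z).IsHermitian) →
      (∀ z ∈ ball p R, (K z - (lam : ℂ) • (1 : Matrix (Fin n) (Fin n) ℂ)).PosSemidef) →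
      (∀ z ∈ ball p R, ((Lam : ℂ) • (1 : Matrix (Fin n) (Fin n) ℂ) - K z).PosSemidef) →
      (∀ z ∈ ball p R, ∀ i j k, dz k (fun y => K y i j) z = dz i (fun y => K y k j) z) →
      (∀ z ∈ ball p R, cHess (fun y => Real.log (K y).det.re) z = K z + Θ z) →
      (∀ z ∈ ball p R, ∀ i j, ContDiffAt ℝ ∞ (fun y => Θ y i j) z) →
      (∀ z ∈ ball p R, ∀ i j, ‖Θ z i j‖ ≤ C₀) →
      (∀ z ∈ ball p R, ∀ i j k, ‖dz k (fun y => Θ y i j) z‖ ≤ C₀) →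
      ∀ z ∈ closedBall p r, ∀ i j k, ‖dz k (fun y => K y i j) z‖ ≤ C

end Vale.Agent.P272.K.C3
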