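import Mathlib.RingTheory.Derivation.Basic
import Mathlib.LinearAlgebra.Matrix.Adjugate
import Mathlib.LinearAlgebra.Matrix.Trace
import Mathlib.Tactic.NoncommRing
import Mathlib.Tactic.LinearCombination
import Mathlib.Tactic.Module

/-! Block C3, part I: the Bochner formula in a commutative ring with derivations. -/

set_option linter.unusedSectionVars false
set_option linter.unusedSimpArgs false

open Matrix Finset

noncomputable section

namespace Vale.Agent.P272.K.C3

/-- square matrices -/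
abbrev Mt (n : ℕ) (A : Type*) : Type _ := Matrix (Fin n) (Fin n) A

section matder
variable {A : Type*} [CommRing A] {l m o : Type*} [Fintype m]

/-- entrywise derivative of a matrix -/
def mD (D : Derivation ℤ A A) (M : Matrix l m A) : Matrix l m A := M.map D

@[simp] lemma mD_apply (D : Derivation ℤ A A) (M : Matrix l m A) (i : l) (j : m) :
    mD D M i j = D (M i j) := rfl

lemma mD_add (D : Derivation ℤ A A) (M N : Matrix l m A) : mD D (M + N) = mD D M + mD D N := by
  ext i j; simp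

lemma mD_sub (D : Derivation ℤ A A) (M N : Matrix l m A) : mD D (M - N) = mD D M - mD D N := by
  ext i j; simp

lemma mD_neg (D : Derivation ℤ A A) (M : Matrix l m A) : mD D (-M) = -mD D M := by
  ext i j; simp

lemma mD_zero (D : Derivation ℤ A A) : mD D (0 : Matrix l m A) = 0 := by
  ext i j; simp

lemma mD_mul [Fintype o] (D : Derivation ℤ A A) (M : Matrix l m A) (N : Matrix m o A) :
    mD D (M * N) = mD D M * N + M * mD D N := by
  ext i j
  simp only [mD_apply, Matrix.mul_apply, Matrix.add_apply, map_sum, Derivation.leibniz,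
    smul_eq_mul, ← Finset.sum_add_distrib]
  exact Finset.sum_congr rfl fun k _ => by ring

lemma mD_smul (D : Derivation ℤ A A) (a : A) (M : Matrix l m A) :
    mD D (a • M) = D a • M + a • mD D M := by
  ext i j
  simp only [mD_apply, Matrix.smul_apply, Matrix.add_apply, smul_eq_mul, Derivation.leibniz]
  ring

lemma mD_sum (D : Derivation ℤ A A) {ι : Type*} (s : Finset ι) (M : ι → Matrix l m A) :
    mD D (∑ i ∈ s, M i) = ∑ i ∈ s, mD D (M i) := by
  ext i j
  simp [Matrix.sum_apply]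

lemma D_trace (D : Derivation ℤ A A) (M : Matrix m m A) : D M.trace = (mD D M).trace := by
  simp [Matrix.trace]

lemma mD_one [DecidableEq m] (D : Derivation ℤ A A) : mD D (1 : Matrix m m A) = 0 := by
  ext i j
  by_cases h : i = j
  · subst h; simp
  · simp [Matrix.one_apply_ne h]

end matder

section pairing
variable {A : Type*} [CommRing A] {n : ℕ}

/-- the pairing `Σ_{ij} G_{ji} tr (G M_i K N_j)` -/
def pair (G K : Mt n A) : (Fin n → Mt n A) →ₗ[A] (Fin n → Mt n A) →ₗ[A] A :=
  LinearMap.mk₂ A (fun M N => ∑ i, ∑ j, G j i * (G * M i * K * N j).trace)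
    (by
      intro M M' N
      simp only [Pi.add_apply, Matrix.mul_add, Matrix.add_mul, Matrix.trace_add, mul_add,
        Finset.sum_add_distrib])
    (by
      intro a M N
      simp only [Pi.smul_apply, Matrix.mul_smul, Matrix.smul_mul, Matrix.trace_smul,
        Finset.mul_sum, smul_eq_mul]
      exact Finset.sum_congr rfl fun i _ => Finset.sum_congr rfl fun j _ => by ring)
    (by
      intro M M' N
      simp only [Pi.add_apply, Matrix.mul_add, Matrix.add_mul, Matrix.trace_add, mul_add,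
        Finset.sum_add_distrib])
    (by
      intro a M N
      simp only [Pi.smul_apply, Matrix.mul_smul, Matrix.smul_mul, Matrix.trace_smul,
        Finset.mul_sum, smul_eq_mul]
      exact Finset.sum_congr rfl fun i _ => Finset.sum_congr rfl fun j _ => by ring)

lemma pair_apply (G K : Mt n A) (M N : Fin n → Mt n A) :
    pair G K M N = ∑ i, ∑ j, G j i * (G * M i * K * N j).trace := rfl

/-- covariant derivative in an unbarred direction (on families `M_i`) -/
def Dd (D : Derivation ℤ A A) (t : Mt n A) (M : Fin n → Mt n A) : Fin n → Mt n A := fun i =>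
  mD D (M i) - t * M i + M i * t - ∑ p, t i p • M p

/-- covariant derivative in a barred direction (on barred families `N_j`) -/
def Db (D : Derivation ℤ A A) (t : Mt n A) (N : Fin n → Mt n A) : Fin n → Mt n A := fun j =>
  mD D (N j) - N j * t + t * N j - ∑ q, t q j • N q

/-- entrywise derivative of a family -/
def fD (D : Derivation ℤ A A) (M : Fin n → Mt n A) : Fin n → Mt n A := fun i => mD D (M i)

/-- product rule in an unbarred direction -/
lemma D_pair_d (D : Derivation ℤ A A) (G K t : Mt n A) (hK : mD D K = t * K)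
    (hG : mD D G = -(G * t)) (M N : Fin n → Mt n A) :
    D (pair G K M N) = pair G K (Dd D t M) N + pair G K M (fD D N) := by
  have h1 : ∀ i j, D (G j i * (G * M i * K * N j).trace) =
      -(∑ p, G j p * t p i) * (G * M i * K * N j).trace
      + G j i * (G * (mD D (M i) - t * M i + M i * t) * K * N j).trace
      + G j i * (G * M i * K * mD D (N j)).trace := by
    intro i j
    rw [Derivation.leibniz, smul_eq_mul, smul_eq_mul, D_trace, mD_mul, mD_mul, mD_mul, hK, hG]
    have h2 : D (G j i) = -(∑ p, G j p * t p i) := by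
      have := congrFun (congrFun hG j) i
      simpa [Matrix.mul_apply] using this
    rw [h2]
    have h3 : ((-(G * t) * M i + G * mD D (M i)) * K + G * M i * (t * K)) * N j
        + G * M i * K * mD D (N j) = G * (mD D (M i) - t * M i + M i * t) * K * N j
        + G * M i * K * mD D (N j) := by noncomm_ring
    rw [h3, Matrix.trace_add]
    ring
  have h4 : pair G K (Dd D t M) N = pair G K (fun i => mD D (M i) - t * M i + M i * t) N
      - pair G K (fun i => ∑ p, t i p • M p) N := by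
    rw [← LinearMap.sub_apply, ← map_sub]; rfl
  rw [h4]
  simp only [pair_apply, fD, map_sum, h1, Finset.sum_add_distrib]
  have h5 : ∑ i, ∑ j, -(∑ p, G j p * t p i) * (G * M i * K * N j).trace =
      -∑ i, ∑ j, G j i * (G * (∑ p, t i p • M p) * K * N j).trace := by
    simp only [Matrix.mul_sum, Matrix.sum_mul, Matrix.trace_sum, Finset.mul_sum, Finset.sum_mul,
      Matrix.mul_smul, Matrix.smul_mul, Matrix.trace_smul, smul_eq_mul, neg_mul,
      Finset.sum_neg_distrib, neg_inj]
    calc ∑ i, ∑ j, ∑ p, G j p * t p i * (G * M i * K * N j).trace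
        = ∑ i, ∑ p, ∑ j, G j p * t p i * (G * M i * K * N j).trace :=
          Finset.sum_congr rfl fun i _ => Finset.sum_comm
      _ = ∑ p, ∑ i, ∑ j, G j p * t p i * (G * M i * K * N j).trace := Finset.sum_comm
      _ = ∑ p, ∑ j, ∑ i, G j p * t p i * (G * M i * K * N j).trace :=
          Finset.sum_congr rfl fun i _ => Finset.sum_comm
      _ = _ := Finset.sum_congr rfl fun i _ => Finset.sum_congr rfl fun j _ =>
          Finset.sum_congr rfl fun p _ => by ring
  rw [h5]
  ring

/-- product rule in a barred direction -/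
lemma D_pair_db (D : Derivation ℤ A A) (G K t : Mt n A) (hK : mD D K = K * t)
    (hG : mD D G = -(t * G)) (M N : Fin n → Mt n A) :
    D (pair G K M N) = pair G K (fD D M) N + pair G K M (Db D t N) := by
  have h1 : ∀ i j, D (G j i * (G * M i * K * N j).trace) =
      -(∑ p, t j p * G p i) * (G * M i * K * N j).trace
      + G j i * (G * M i * K * (mD D (N j) - N j * t + t * N j)).trace
      + G j i * (G * mD D (M i) * K * N j).trace := by
    intro i j
    rw [Derivation.leibniz, smul_eq_mul, smul_eq_mul, D_trace, mD_mul, mD_mul, mD_mul, hK, hG]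
    have h2 : D (G j i) = -(∑ p, t j p * G p i) := by
      have := congrFun (congrFun hG j) i
      simpa [Matrix.mul_apply] using this
    rw [h2]
    have h3 : ((-(t * G) * M i + G * mD D (M i)) * K + G * M i * (K * t)) * N j
        + G * M i * K * mD D (N j) = -(t * (G * M i * K * N j)) + G * mD D (M i) * K * N j
        + G * M i * K * (mD D (N j) + t * N j) := by noncomm_ring
    have h3' : G * M i * K * (mD D (N j) - N j * t + t * N j) = 
        G * M i * K * (mD D (N j) + t * N j) - (G * M i * K * N j) * t := by noncomm_ring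
    rw [h3, h3', Matrix.trace_add, Matrix.trace_add, Matrix.trace_sub, Matrix.trace_neg,
      Matrix.trace_mul_comm t]
    ring
  have h4 : pair G K M (Db D t N) = pair G K M (fun j => mD D (N j) - N j * t + t * N j)
      - pair G K M (fun j => ∑ q, t q j • N q) := by
    rw [← map_sub]; rfl
  rw [h4]
  simp only [pair_apply, fD, map_sum, h1, Finset.sum_add_distrib]
  have h5 : ∑ i, ∑ j, -(∑ p, t j p * G p i) * (G * M i * K * N j).trace =
      -∑ i, ∑ j, G j i * (G * M i * K * (∑ q, t q j • N q)).trace := by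
    simp only [Matrix.mul_sum, Matrix.trace_sum, Finset.mul_sum, Finset.sum_mul,
      Matrix.mul_smul, Matrix.trace_smul, smul_eq_mul, neg_mul,
      Finset.sum_neg_distrib, neg_inj]
    refine Finset.sum_congr rfl fun i _ => ?_
    calc ∑ j, ∑ p, t j p * G p i * (G * M i * K * N j).trace
        = ∑ p, ∑ j, t j p * G p i * (G * M i * K * N j).trace := Finset.sum_comm
      _ = _ := Finset.sum_congr rfl fun i _ => Finset.sum_congr rfl fun j _ => by ring
  rw [h5]
  ring

end pairing

section bochner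
variable {A : Type*} [CommRing A] {n : ℕ}

/-- a Kähler metric `K` with inverse `G`, connection matrices `θ`, `ϑ`, in a commutative ring with
derivations `d a`, `db b` -/
structure KStruct (d db : Fin n → Derivation ℤ A A) (K G : Mt n A) (θ ϑ : Fin n → Mt n A) : Prop where
  mix : ∀ a b x, d a (db b x) = db b (d a x)
  dd : ∀ a b x, d a (d b x) = d b (d a x)
  bb : ∀ a b x, db a (db b x) = db b (db a x)
  KG : K * G = 1
  GK : G * K = 1
  dK : ∀ a, mD (d a) K = θ a * K
  dbK : ∀ b, mD (db b) K = K * ϑ b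
  sym : ∀ a i p, θ a i p = θ i a p
  symb : ∀ a p i, ϑ a p i = ϑ i p a

variable {d db : Fin n → Derivation ℤ A A} {K G : Mt n A} {θ ϑ : Fin n → Mt n A}

lemma mD_comm' {D D' : Derivation ℤ A A} (h : ∀ x, D (D' x) = D' (D x)) {l m : Type*}
    (M : Matrix l m A) : mD D (mD D' M) = mD D' (mD D M) := by
  ext i j; simp [h]


lemma KStruct.dG (h : KStruct d db K G θ ϑ) (a : Fin n) : mD (d a) G = -(G * θ a) := by
  have h1 : mD (d a) (G * K) = 0 := by rw [h.GK, mD_one]
  rw [mD_mul, h.dK] at h1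
  calc mD (d a) G = (mD (d a) G * K + G * (θ a * K)) * G - G * θ a * (K * G)
        + mD (d a) G * (1 - K * G) := by noncomm_ring
    _ = -(G * θ a) := by rw [h1, h.KG]; noncomm_ring

lemma KStruct.dbG (h : KStruct d db K G θ ϑ) (b : Fin n) : mD (db b) G = -(ϑ b * G) := by
  have h1 : mD (db b) (K * G) = 0 := by rw [h.KG, mD_one]
  rw [mD_mul, h.dbK] at h1
  calc mD (db b) G = G * (K * ϑ b * G + K * mD (db b) G) - (G * K) * ϑ b * G
        + (1 - G * K) * mD (db b) G := by noncomm_ring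
    _ = -(ϑ b * G) := by rw [h1, h.GK]; noncomm_ring

lemma KStruct.flat (h : KStruct d db K G θ ϑ) (a i : Fin n) : mD (d a) (θ i) + θ i * θ a = mD (d i) (θ a) + θ a * θ i := by
  have h1 : mD (d a) (mD (d i) K) = mD (d i) (mD (d a) K) := mD_comm' (h.dd a i) K
  rw [h.dK, h.dK, mD_mul, mD_mul, h.dK, h.dK] at h1
  calc mD (d a) (θ i) + θ i * θ a = (mD (d a) (θ i) * K + θ i * (θ a * K)) * G
        + (mD (d a) (θ i) + θ i * θ a) * (1 - K * G) := by noncomm_ring
    _ = (mD (d i) (θ a) * K + θ a * (θ i * K)) * G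
        + (mD (d a) (θ i) + θ i * θ a) * (1 - K * G) := by rw [h1]
    _ = (mD (d i) (θ a) + θ a * θ i) * (K * G)
        + (mD (d a) (θ i) + θ i * θ a) * (1 - K * G) := by noncomm_ring
    _ = _ := by rw [h.KG]; noncomm_ring

lemma KStruct.flatb (h : KStruct d db K G θ ϑ) (b j : Fin n) : mD (db b) (ϑ j) + ϑ b * ϑ j = mD (db j) (ϑ b) + ϑ j * ϑ b := by
  have h1 : mD (db b) (mD (db j) K) = mD (db j) (mD (db b) K) := mD_comm' (h.bb b j) K
  rw [h.dbK, h.dbK, mD_mul, mD_mul, h.dbK, h.dbK] at h1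
  calc mD (db b) (ϑ j) + ϑ b * ϑ j = G * (K * ϑ b * ϑ j + K * mD (db b) (ϑ j))
        + (1 - G * K) * (mD (db b) (ϑ j) + ϑ b * ϑ j) := by noncomm_ring
    _ = G * (K * ϑ j * ϑ b + K * mD (db j) (ϑ b))
        + (1 - G * K) * (mD (db b) (ϑ j) + ϑ b * ϑ j) := by rw [h1]
    _ = (G * K) * (mD (db j) (ϑ b) + ϑ j * ϑ b)
        + (1 - G * K) * (mD (db b) (ϑ j) + ϑ b * ϑ j) := by noncomm_ring
    _ = _ := by rw [h.GK]; noncomm_ring

/-- the second Bianchi identity -/
lemma KStruct.bianchi (h : KStruct d db K G θ ϑ) (a b i : Fin n) :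
    Dd (d a) (θ a) (fD (db b) θ) i = Dd (d i) (θ i) (fD (db b) θ) a := by
  have h1 := congrArg (mD (db b)) (h.flat a i)
  rw [mD_add, mD_add, mD_mul, mD_mul, ← mD_comm' (h.mix a b), ← mD_comm' (h.mix i b)] at h1
  have h2 : ∀ p, θ a i p = θ i a p := fun p => h.sym a i p
  simp only [Dd, fD, h2]
  have h3 : mD (d a) (mD (db b) (θ i)) = mD (d i) (mD (db b) (θ a))
      + (mD (db b) (θ a) * θ i + θ a * mD (db b) (θ i))
      - (mD (db b) (θ i) * θ a + θ i * mD (db b) (θ a)) := by
    rw [eq_sub_iff_add_eq, h1]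
  rw [h3]
  abel

lemma KStruct.bianchib (h : KStruct d db K G θ ϑ) (a b j : Fin n) :
    Db (db b) (ϑ b) (fD (d a) ϑ) j = Db (db j) (ϑ j) (fD (d a) ϑ) b := by
  have h1 := congrArg (mD (d a)) (h.flatb b j)
  rw [mD_add, mD_add, mD_mul, mD_mul, mD_comm' (h.mix a b), mD_comm' (h.mix a j)] at h1
  have h2 : ∀ p, ϑ b p j = ϑ j p b := fun p => h.symb b p j
  simp only [Db, fD, h2]
  have h3 : mD (db b) (mD (d a) (ϑ j)) = mD (db j) (mD (d a) (ϑ b))
      + (mD (d a) (ϑ j) * ϑ b + ϑ j * mD (d a) (ϑ b))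
      - (mD (d a) (ϑ b) * ϑ j + ϑ b * mD (d a) (ϑ j)) := by
    rw [eq_sub_iff_add_eq, h1]
  rw [h3]
  abel


/-- the Ricci equation in contracted form -/
structure RicStruct (d db : Fin n → Derivation ℤ A A) (K G T : Mt n A) (θ ϑ : Fin n → Mt n A) : Prop
    extends KStruct d db K G θ ϑ where
  ric : ∑ a, ∑ b, G b a • mD (db b) (θ a) = 1 + T * G
  ricb : ∑ a, ∑ b, G b a • mD (d a) (ϑ b) = 1 + G * T

variable {T : Mt n A}

lemma RicStruct.Q (h : RicStruct d db K G T θ ϑ) (i : Fin n) :
    ∑ a, ∑ b, G b a • Dd (d a) (θ a) (fD (db b) θ) i = (mD (d i) T - θ i * T) * G := by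
  have e1 : ∑ a, ∑ b, G b a • Dd (d a) (θ a) (fD (db b) θ) i =
      ∑ a, ∑ b, G b a • Dd (d i) (θ i) (fD (db b) θ) a :=
    Finset.sum_congr rfl fun a _ => Finset.sum_congr rfl fun b _ => by
      rw [h.toKStruct.bianchi]
  rw [e1]
  have e2 := congrArg (mD (d i)) h.ric
  simp only [mD_sum, mD_smul, mD_add, mD_mul, mD_one, zero_add, Finset.sum_add_distrib,
    h.toKStruct.dG] at e2
  have e3 : ∑ a, ∑ b, (d i) (G b a) • mD (db b) (θ a) =
      -∑ a, ∑ b, G b a • ∑ p, θ i a p • mD (db b) (θ p) := by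
    have h2 : ∀ b a, d i (G b a) = -(∑ p, G b p * θ i p a) := by
      intro b a
      have := congrFun (congrFun (h.toKStruct.dG i) b) a
      simpa [Matrix.mul_apply] using this
    simp only [h2, Finset.smul_sum, neg_smul, Finset.sum_smul, Finset.sum_neg_distrib, smul_smul,
      neg_inj]
    calc ∑ a, ∑ b, ∑ p, (G b p * θ i p a) • mD (db b) (θ a)
        = ∑ a, ∑ p, ∑ b, (G b p * θ i p a) • mD (db b) (θ a) :=
          Finset.sum_congr rfl fun i _ => Finset.sum_comm
      _ = ∑ p, ∑ a, ∑ b, (G b p * θ i p a) • mD (db b) (θ a) := Finset.sum_comm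
      _ = _ := Finset.sum_congr rfl fun i _ => Finset.sum_comm
  rw [e3] at e2
  have e4 : ∑ a, ∑ b, G b a • Dd (d i) (θ i) (fD (db b) θ) a =
      ∑ a, ∑ b, G b a • mD (d i) (mD (db b) (θ a))
      - θ i * (∑ a, ∑ b, G b a • mD (db b) (θ a)) + (∑ a, ∑ b, G b a • mD (db b) (θ a)) * θ i
      - ∑ a, ∑ b, G b a • ∑ p, θ i a p • mD (db b) (θ p) := by
    simp only [Dd, fD, smul_sub, smul_add, Finset.sum_sub_distrib, Finset.sum_add_distrib,
      Matrix.mul_sum, Matrix.sum_mul, Matrix.mul_smul, Matrix.smul_mul]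
  rw [e4, h.ric]
  have e5 : ∑ a, ∑ b, G b a • mD (d i) (mD (db b) (θ a)) = mD (d i) T * G + T * -(G * θ i)
      + ∑ a, ∑ b, G b a • ∑ p, θ i a p • mD (db b) (θ p) := by
    rw [← e2]; abel
  rw [e5]
  noncomm_ring

lemma RicStruct.Qb (h : RicStruct d db K G T θ ϑ) (j : Fin n) :
    ∑ a, ∑ b, G b a • Db (db b) (ϑ b) (fD (d a) ϑ) j = G * (mD (db j) T - T * ϑ j) := by
  have e1 : ∑ a, ∑ b, G b a • Db (db b) (ϑ b) (fD (d a) ϑ) j =
      ∑ a, ∑ b, G b a • Db (db j) (ϑ j) (fD (d a) ϑ) b :=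
    Finset.sum_congr rfl fun a _ => Finset.sum_congr rfl fun b _ => by
      rw [h.toKStruct.bianchib]
  rw [e1]
  have e2 := congrArg (mD (db j)) h.ricb
  simp only [mD_sum, mD_smul, mD_add, mD_mul, mD_one, zero_add, Finset.sum_add_distrib,
    h.toKStruct.dbG] at e2
  have e3 : ∑ a, ∑ b, (db j) (G b a) • mD (d a) (ϑ b) =
      -∑ a, ∑ b, G b a • ∑ p, ϑ j p b • mD (d a) (ϑ p) := by
    have h2 : ∀ b a, db j (G b a) = -(∑ p, ϑ j b p * G p a) := by
      intro b a
      have := congrFun (congrFun (h.toKStruct.dbG j) b) a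
      simpa [Matrix.mul_apply] using this
    simp only [h2, Finset.smul_sum, neg_smul, Finset.sum_smul, Finset.sum_neg_distrib, smul_smul,
      neg_inj]
    refine Finset.sum_congr rfl fun a _ => ?_
    rw [Finset.sum_comm]
    exact Finset.sum_congr rfl fun p _ => Finset.sum_congr rfl fun b _ => by rw [mul_comm]
  rw [e3] at e2
  have e4 : ∑ a, ∑ b, G b a • Db (db j) (ϑ j) (fD (d a) ϑ) b =
      ∑ a, ∑ b, G b a • mD (db j) (mD (d a) (ϑ b))
      - (∑ a, ∑ b, G b a • mD (d a) (ϑ b)) * ϑ j + ϑ j * (∑ a, ∑ b, G b a • mD (d a) (ϑ b))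
      - ∑ a, ∑ b, G b a • ∑ p, ϑ j p b • mD (d a) (ϑ p) := by
    simp only [Db, fD, smul_sub, smul_add, Finset.sum_sub_distrib, Finset.sum_add_distrib,
      Matrix.mul_sum, Matrix.sum_mul, Matrix.mul_smul, Matrix.smul_mul]
  rw [e4, h.ricb]
  have e5 : ∑ a, ∑ b, G b a • mD (db j) (mD (d a) (ϑ b)) = -(ϑ j * G) * T + G * mD (db j) T
      + ∑ a, ∑ b, G b a • ∑ p, ϑ j p b • mD (d a) (ϑ p) := by
    rw [← e2]; abel
  rw [e5]
  noncomm_ring

lemma KStruct.commut (h : KStruct d db K G θ ϑ) (a b j : Fin n) :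
    mD (d a) (Db (db b) (ϑ b) ϑ j) = Db (db b) (ϑ b) (fD (d a) ϑ) j
      - ϑ j * mD (d a) (ϑ b) + mD (d a) (ϑ b) * ϑ j - ∑ q, mD (d a) (ϑ b) q j • ϑ q := by
  simp only [Db, fD, mD_sub, mD_add, mD_mul, mD_sum, mD_smul, Finset.sum_add_distrib,
    mD_comm' (h.mix a b), mD_apply]
  abel

lemma RicStruct.Qb' (h : RicStruct d db K G T θ ϑ) (j : Fin n) :
    ∑ a, ∑ b, G b a • mD (d a) (Db (db b) (ϑ b) ϑ j) = G * (mD (db j) T - T * ϑ j)
      - ϑ j * (1 + G * T) + (1 + G * T) * ϑ j - ∑ q, (1 + G * T) q j • ϑ q := by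
  simp only [h.toKStruct.commut, smul_sub, smul_add, Finset.sum_sub_distrib,
    Finset.sum_add_distrib, h.Qb]
  have e1 : ∑ a, ∑ b, G b a • (ϑ j * mD (d a) (ϑ b)) = ϑ j * (1 + G * T) := by
    rw [← h.ricb]; simp only [Matrix.mul_sum, Matrix.mul_smul]
  have e2 : ∑ a, ∑ b, G b a • (mD (d a) (ϑ b) * ϑ j) = (1 + G * T) * ϑ j := by
    rw [← h.ricb]; simp only [Matrix.sum_mul, Matrix.smul_mul]
  have e3 : ∑ a, ∑ b, G b a • ∑ q, mD (d a) (ϑ b) q j • ϑ q = ∑ q, (1 + G * T) q j • ϑ q := by
    rw [← h.ricb]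
    simp only [Matrix.sum_apply, Matrix.smul_apply, Finset.smul_sum, Finset.sum_smul, smul_smul,
      smul_eq_mul]
    calc ∑ a, ∑ b, ∑ q, (G b a * mD (d a) (ϑ b) q j) • ϑ q
        = ∑ a, ∑ q, ∑ b, (G b a * mD (d a) (ϑ b) q j) • ϑ q :=
          Finset.sum_congr rfl fun i _ => Finset.sum_comm
      _ = _ := Finset.sum_comm
  rw [e1, e2, e3]

/-- **the Bochner formula** for `S = |θ|²` -/
theorem RicStruct.bochner (h : RicStruct d db K G T θ ϑ) :
    ∑ a, ∑ b, G b a * d a (db b (pair G K θ ϑ)) =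
      pair G K (fun i => (mD (d i) T - θ i * T) * G) ϑ
      + ∑ a, ∑ b, G b a * pair G K (fD (db b) θ) (fD (d a) ϑ)
      + ∑ a, ∑ b, G b a * pair G K (Dd (d a) (θ a) θ) (Db (db b) (ϑ b) ϑ)
      + pair G K θ (fun j => G * (mD (db j) T - T * ϑ j)
      - ϑ j * (1 + G * T) + (1 + G * T) * ϑ j - ∑ q, (1 + G * T) q j • ϑ q) := by
  have hK := h.toKStruct
  have e1 : ∀ a b, d a (db b (pair G K θ ϑ)) = pair G K (Dd (d a) (θ a) (fD (db b) θ)) ϑ
      + pair G K (fD (db b) θ) (fD (d a) ϑ)
      + pair G K (Dd (d a) (θ a) θ) (Db (db b) (ϑ b) ϑ)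
      + pair G K θ (fD (d a) (Db (db b) (ϑ b) ϑ)) := by
    intro a b
    rw [D_pair_db (db b) G K (ϑ b) (hK.dbK b) (hK.dbG b), map_add,
      D_pair_d (d a) G K (θ a) (hK.dK a) (hK.dG a), D_pair_d (d a) G K (θ a) (hK.dK a) (hK.dG a)]
    ring
  have e0 : ∀ a b, G b a * d a (db b (pair G K θ ϑ)) =
      G b a * pair G K (Dd (d a) (θ a) (fD (db b) θ)) ϑ
      + G b a * pair G K (fD (db b) θ) (fD (d a) ϑ)
      + G b a * pair G K (Dd (d a) (θ a) θ) (Db (db b) (ϑ b) ϑ)
      + G b a * pair G K θ (fD (d a) (Db (db b) (ϑ b) ϑ)) := by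
    intro a b; rw [e1]; ring
  simp only [e0, Finset.sum_add_distrib]
  have e2 : ∑ a, ∑ b, G b a * pair G K (Dd (d a) (θ a) (fD (db b) θ)) ϑ =
      pair G K (fun i => (mD (d i) T - θ i * T) * G) ϑ := by
    have : (fun i => (mD (d i) T - θ i * T) * G) =
        ∑ a, ∑ b, G b a • Dd (d a) (θ a) (fD (db b) θ) := by
      funext i
      rw [← h.Q i]
      simp only [Finset.sum_apply, Pi.smul_apply]
    rw [this]
    simp only [map_sum, map_smul, LinearMap.sum_apply, LinearMap.smul_apply, smul_eq_mul]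
  have e3 : ∑ a, ∑ b, G b a * pair G K θ (fD (d a) (Db (db b) (ϑ b) ϑ)) =
      pair G K θ (fun j => G * (mD (db j) T - T * ϑ j)
      - ϑ j * (1 + G * T) + (1 + G * T) * ϑ j - ∑ q, (1 + G * T) q j • ϑ q) := by
    have : (fun j => G * (mD (db j) T - T * ϑ j)
      - ϑ j * (1 + G * T) + (1 + G * T) * ϑ j - ∑ q, (1 + G * T) q j • ϑ q) =
        ∑ a, ∑ b, G b a • fD (d a) (Db (db b) (ϑ b) ϑ) := by
      funext j
      rw [← h.Qb' j]
      simp only [Finset.sum_apply, Pi.smul_apply, fD]
    rw [this]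
    simp only [map_sum, map_smul, smul_eq_mul]
  rw [e2, e3]

/-- first derivative of `S` -/
theorem KStruct.dS (h : KStruct d db K G θ ϑ) (a : Fin n) :
    d a (pair G K θ ϑ) = pair G K (Dd (d a) (θ a) θ) ϑ + pair G K θ (fD (d a) ϑ) :=
  D_pair_d (d a) G K (θ a) (h.dK a) (h.dG a) θ ϑ

/-- the Laplacian of the trace -/
theorem RicStruct.lap_trace (h : RicStruct d db K G T θ ϑ) :
    ∑ a, ∑ b, G b a * d a (db b K.trace) =
      (K + T).trace + ∑ a, ∑ b, G b a * (θ a * K * ϑ b).trace := by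
  have e1 : ∀ a b, d a (db b K.trace) = (K * mD (d a) (ϑ b)).trace + (θ a * K * ϑ b).trace := by
    intro a b
    rw [D_trace, h.dbK, D_trace, mD_mul, h.dK, Matrix.trace_add, add_comm]
  simp only [e1, mul_add, Finset.sum_add_distrib]
  congr 1
  have e2 : ∑ a, ∑ b, G b a * (K * mD (d a) (ϑ b)).trace = (K * (1 + G * T)).trace := by
    rw [← h.ricb]
    simp only [Matrix.mul_sum, Matrix.trace_sum, Matrix.mul_smul, Matrix.trace_smul, smul_eq_mul]
  rw [e2, Matrix.mul_add, Matrix.mul_one, ← Matrix.mul_assoc, h.KG, Matrix.one_mul]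

end bochner

section mk
variable {A : Type*} [CommRing A] {n : ℕ}
variable {d db : Fin n → Derivation ℤ A A} {K G T : Mt n A}

/-- construction of a `KStruct` from a Kähler metric -/
lemma KStruct.mk' (mix : ∀ a b x, d a (db b x) = db b (d a x))
    (dd : ∀ a b x, d a (d b x) = d b (d a x)) (bb : ∀ a b x, db a (db b x) = db b (db a x))
    (KG : K * G = 1) (GK : G * K = 1)
    (hk : ∀ a i j, d a (K i j) = d i (K a j)) (hkb : ∀ a i j, db a (K i j) = db j (K i a)) :
    KStruct d db K G (fun a => mD (d a) K * G) (fun b => G * mD (db b) K) where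
  mix := mix
  dd := dd
  bb := bb
  KG := KG
  GK := GK
  dK a := by rw [Matrix.mul_assoc, GK, Matrix.mul_one]
  dbK b := by rw [← Matrix.mul_assoc, KG, Matrix.one_mul]
  sym a i p := by
    simp only [Matrix.mul_apply, mD_apply]
    exact Finset.sum_congr rfl fun j _ => by rw [hk]
  symb a p i := by
    simp only [Matrix.mul_apply, mD_apply]
    exact Finset.sum_congr rfl fun j _ => by rw [hkb]

lemma KStruct.mkRic {θ ϑ : Fin n → Mt n A} (h : KStruct d db K G θ ϑ)
    (f : A) (hf : ∀ i, d i f = (θ i).trace) (hft : ∀ i j, d i (db j f) = (K + T) i j) :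
    RicStruct d db K G T θ ϑ := by
  have hW : ∀ a b, mD (db b) (θ a) * K = mD (db b) (mD (d a) K) - θ a * K * ϑ b := by
    intro a b
    rw [h.dK, mD_mul, h.dbK]; noncomm_ring
  have hW' : ∀ a b, K * mD (d a) (ϑ b) = mD (db b) (mD (d a) K) - θ a * K * ϑ b := by
    intro a b
    rw [← mD_comm' (h.mix a b), h.dbK, mD_mul, h.dK]; noncomm_ring
  have s1 : ∀ a i j, d a (K i j) = d i (K a j) := by
    intro a i j
    have e1 := congrFun (congrFun (h.dK a) i) j
    have e2 := congrFun (congrFun (h.dK i) a) j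
    simp only [mD_apply, Matrix.mul_apply] at e1 e2
    rw [e1, e2]
    exact Finset.sum_congr rfl fun p _ => by rw [h.sym]
  have s2 : ∀ b i j, db b (K i j) = db j (K i b) := by
    intro b i j
    have e1 := congrFun (congrFun (h.dbK b) i) j
    have e2 := congrFun (congrFun (h.dbK j) i) b
    simp only [mD_apply, Matrix.mul_apply] at e1 e2
    rw [e1, e2]
    exact Finset.sum_congr rfl fun p _ => by rw [h.symb]
  have s3 : ∀ a b i j, (mD (db b) (mD (d a) K) - θ a * K * ϑ b) i j =
      (mD (db j) (mD (d i) K) - θ i * K * ϑ j) a b := by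
    intro a b i j
    simp only [Matrix.sub_apply, mD_apply]
    congr 1
    · rw [s1 a i j, ← h.mix, s2, h.mix]
    · rw [Matrix.mul_assoc, Matrix.mul_assoc]
      simp only [Matrix.mul_apply (M := θ a), Matrix.mul_apply (M := θ i), ← h.dbK, mD_apply]
      exact Finset.sum_congr rfl fun p _ => by rw [h.sym, s2]
  have hmain : ∑ a, ∑ b, G b a • (mD (db b) (mD (d a) K) - θ a * K * ϑ b) = K + T := by
    ext i j
    rw [← hft, h.mix, hf, D_trace]
    simp only [Matrix.sum_apply, Matrix.smul_apply, s3 _ _ i j, smul_eq_mul]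
    rw [← hW]
    have : (mD (db j) (θ i)).trace = (G * (mD (db j) (θ i) * K)).trace := by
      rw [Matrix.trace_mul_comm, Matrix.mul_assoc, h.KG, Matrix.mul_one]
    rw [this, Matrix.trace]
    simp only [Matrix.diag_apply, Matrix.mul_apply (M := G)]
    exact Finset.sum_comm
  refine ⟨h, ?_, ?_⟩
  · calc ∑ a, ∑ b, G b a • mD (db b) (θ a)
        = (∑ a, ∑ b, G b a • (mD (db b) (θ a) * K)) * G := by
          simp only [Matrix.sum_mul, Matrix.smul_mul, Matrix.mul_assoc, h.KG, Matrix.mul_one]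
      _ = (K + T) * G := by simp only [hW]; rw [hmain]
      _ = 1 + T * G := by rw [Matrix.add_mul, h.KG]
  · calc ∑ a, ∑ b, G b a • mD (d a) (ϑ b)
        = G * (∑ a, ∑ b, G b a • (K * mD (d a) (ϑ b))) := by
          simp only [Matrix.mul_sum, Matrix.mul_smul, ← Matrix.mul_assoc, h.GK, Matrix.one_mul]
      _ = G * (K + T) := by simp only [hW']; rw [hmain]
      _ = 1 + G * T := by rw [Matrix.mul_add, h.GK]

lemma D_prod' {ι : Type*} [DecidableEq ι] (D : Derivation ℤ A A) (s : Finset ι) (f : ι → A) :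
    D (∏ i ∈ s, f i) = ∑ j ∈ s, (∏ i ∈ s.erase j, f i) * D (f j) := by
  induction s using Finset.induction_on with
  | empty => simp
  | insert a s ha ih =>
    rw [Finset.prod_insert ha, Derivation.leibniz, ih, Finset.sum_insert ha,
      Finset.erase_insert ha, smul_eq_mul, smul_eq_mul, Finset.mul_sum, add_comm]
    congr 1
    refine Finset.sum_congr rfl fun j hj => ?_
    have hja : a ≠ j := fun h => ha (h ▸ hj)
    rw [Finset.erase_insert_of_ne hja, Finset.prod_insert (fun h => ha (Finset.mem_of_mem_erase h))]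
    ring

/-- Jacobi's formula for a derivation -/
lemma D_det (D : Derivation ℤ A A) (M : Mt n A) :
    D M.det = (M.adjugate * mD D M).trace := by
  have h1 : (M.adjugate * mD D M).trace = ∑ j, (M.updateCol j (fun i => D (M i j))).det := by
    simp only [Matrix.trace, Matrix.diag_apply]
    refine Finset.sum_congr rfl fun j _ => ?_
    rw [← Matrix.cramer_apply, Matrix.cramer_eq_adjugate_mulVec]
    simp [Matrix.mul_apply, Matrix.mulVec, dotProduct]
  rw [h1]
  simp only [Matrix.det_apply']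
  rw [Finset.sum_comm, map_sum]
  refine Finset.sum_congr rfl fun σ _ => ?_
  rw [Derivation.leibniz]
  have h2 : D ((Equiv.Perm.sign σ : ℤ) : A) = 0 := by simp
  rw [h2, smul_zero, add_zero, smul_eq_mul, D_prod', Finset.mul_sum]
  refine Finset.sum_congr rfl fun j _ => ?_
  congr 1
  rw [← Finset.prod_erase_mul _ _ (Finset.mem_univ j)]
  congr 1
  · refine Finset.prod_congr rfl fun i hi => ?_
    rw [Matrix.updateCol_ne (Finset.ne_of_mem_erase hi)]
  · rw [Matrix.updateCol_self]

end mk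

end Vale.Agent.P272.K.C3
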