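import Vale.Agent.P272.K.C3.DiffAlg
import Mathlib.Analysis.InnerProductSpace.PiL2
import Mathlib.Analysis.Matrix.Order
set_option linter.unusedSectionVars false
set_option linter.unusedSimpArgs false

open Matrix Finset
open scoped ComplexOrder InnerProductSpace ComplexConjugate

noncomputable section

namespace Vale.Agent.P272.K.C3

variable {n : ℕ}

/-- the Euclidean space in which the pairing becomes the standard inner product -/
abbrev EV (n : ℕ) : Type := EuclideanSpace ℂ (Fin n × Fin n × Fin n)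

/-- coordinates in an orthonormal frame -/
def PhM (B Bi : Mt n ℂ) (M : Fin n → Mt n ℂ) (c : Fin n) : Mt n ℂ := ∑ i, B c i • (B * M i * Bi)

/-- coordinates in an orthonormal frame -/
def Ph (B Bi : Mt n ℂ) : (Fin n → Mt n ℂ) →ₗ[ℂ] EV n where
  toFun M := WithLp.toLp 2 fun x => PhM B Bi M x.1 x.2.1 x.2.2
  map_add' M N := by
    ext x
    simp only [PhM, Pi.add_apply, Matrix.mul_add, Matrix.add_mul, smul_add, Finset.sum_add_distrib,
      Matrix.add_apply, PiLp.add_apply]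
  map_smul' a M := by
    ext x
    simp only [PhM, Pi.smul_apply, Matrix.mul_smul, Matrix.smul_mul, PiLp.smul_apply, RingHom.id_apply,
      Matrix.sum_apply, Matrix.smul_apply, smul_eq_mul, Finset.mul_sum]
    exact Finset.sum_congr rfl fun i _ => by ring

lemma Ph_apply (B Bi : Mt n ℂ) (M : Fin n → Mt n ℂ) (c p q : Fin n) :
    Ph B Bi M (c, p, q) = PhM B Bi M c p q := rfl

lemma inner_Ph (B Bi : Mt n ℂ) (M N : Fin n → Mt n ℂ) :
    ⟪Ph B Bi N, Ph B Bi M⟫_ℂ = ∑ c, (PhM B Bi M c * (PhM B Bi N c)ᴴ).trace := by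
  rw [PiLp.inner_apply, Fintype.sum_prod_type]
  refine Finset.sum_congr rfl fun c _ => ?_
  rw [Fintype.sum_prod_type]
  simp only [Matrix.trace, Matrix.diag_apply, Matrix.mul_apply, Matrix.conjTranspose_apply, Ph_apply,
    RCLike.inner_apply, starRingEnd_apply]

/-- a square root of the inverse metric -/
structure Sq (G K B Bi : Mt n ℂ) : Prop where
  hG : G = Bᴴ * B
  hK : K = Bi * Biᴴ
  BBi : B * Bi = 1
  BiB : Bi * B = 1

lemma Sq.pair_eq {G K B Bi : Mt n ℂ} (h : Sq G K B Bi) (M N : Fin n → Mt n ℂ) :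
    pair G K M (fun j => (N j)ᴴ) = ⟪Ph B Bi N, Ph B Bi M⟫_ℂ := by
  have h1 : ∀ i j, (G * M i * K * (N j)ᴴ).trace = ((B * M i * Bi) * (B * N j * Bi)ᴴ).trace := by
    intro i j
    rw [h.hG, h.hK, Matrix.conjTranspose_mul, Matrix.conjTranspose_mul]
    have : Bᴴ * B * M i * (Bi * Biᴴ) * (N j)ᴴ = Bᴴ * (B * M i * Bi * Biᴴ * (N j)ᴴ) := by
      simp only [Matrix.mul_assoc]
    rw [this, Matrix.trace_mul_comm]
    simp only [Matrix.mul_assoc]
  have h2 : ∀ i j, G j i = ∑ c, conj (B c j) * B c i := by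
    intro i j
    rw [h.hG, Matrix.mul_apply]
    simp [Matrix.conjTranspose_apply]
  rw [inner_Ph, pair_apply]
  have h4 : ∀ c, (PhM B Bi M c * (PhM B Bi N c)ᴴ).trace = ∑ i, ∑ j, conj (B c j) * B c i *
      ((B * M i * Bi) * (B * N j * Bi)ᴴ).trace := by
    intro c
    simp only [PhM, Matrix.conjTranspose_sum, Matrix.conjTranspose_smul, Matrix.sum_mul,
      Matrix.mul_sum, Matrix.trace_sum, Matrix.smul_mul, Matrix.mul_smul, Matrix.trace_smul,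
      smul_eq_mul, starRingEnd_apply]
    rw [Finset.sum_comm]
    refine Finset.sum_congr rfl fun i _ => ?_
    rw [Finset.mul_sum]
    exact Finset.sum_congr rfl fun j _ => by ring
  simp only [h1, h2, h4, Finset.sum_mul]
  calc ∑ i, ∑ j, ∑ c, conj (B c j) * B c i * ((B * M i * Bi) * (B * N j * Bi)ᴴ).trace
      = ∑ i, ∑ c, ∑ j, conj (B c j) * B c i * ((B * M i * Bi) * (B * N j * Bi)ᴴ).trace :=
        Finset.sum_congr rfl fun i _ => Finset.sum_comm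
    _ = _ := Finset.sum_comm


/-- existence of a square root of the inverse -/
lemma exists_Sq {K : Mt n ℂ} (hK : K.PosDef) : ∃ B Bi : Mt n ℂ, Sq K⁻¹ K B Bi := by
  open scoped MatrixOrder in
  obtain ⟨B, hB⟩ := CStarAlgebra.nonneg_iff_eq_star_mul_self.mp hK.inv.posSemidef.nonneg
  rw [Matrix.star_eq_conjTranspose] at hB
  have hdet : IsUnit K.det := (Matrix.isUnit_iff_isUnit_det K).1 hK.isUnit
  have h1 : K * Bᴴ * B = 1 := by
    rw [Matrix.mul_assoc, ← hB, Matrix.mul_nonsing_inv K hdet]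
  have h2 : B * (K * Bᴴ) = 1 := mul_eq_one_comm.mp h1
  have h3 : Bᴴ * B * K = 1 := by rw [← hB, Matrix.nonsing_inv_mul K hdet]
  have h4 : B * K * Bᴴ = 1 := by rw [Matrix.mul_assoc]; exact h2
  refine ⟨B, K * Bᴴ, hB, ?_, h2, h1⟩
  rw [Matrix.conjTranspose_mul, Matrix.conjTranspose_conjTranspose, hK.isHermitian.eq]
  have : K * Bᴴ * (B * K) = K * (Bᴴ * B * K) := by simp only [Matrix.mul_assoc]
  rw [this, h3, Matrix.mul_one]

lemma Sq.G_apply {G K B Bi : Mt n ℂ} (h : Sq G K B Bi) (i j : Fin n) :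
    G j i = ∑ c, conj (B c j) * B c i := by
  rw [h.hG, Matrix.mul_apply]
  simp [Matrix.conjTranspose_apply]

/-- `Σ_{ab} G_{ba} H(X_a, Y_b)` with the frame -/
lemma Sq.sum_eq {G K B Bi : Mt n ℂ} (h : Sq G K B Bi) (X Y : Fin n → Fin n → Mt n ℂ) :
    ∑ a, ∑ b, G b a * ⟪Ph B Bi (Y b), Ph B Bi (X a)⟫_ℂ =
      ∑ e, ⟪Ph B Bi (∑ b, B e b • Y b), Ph B Bi (∑ a, B e a • X a)⟫_ℂ := by
  simp only [map_sum, map_smul, sum_inner, inner_sum, inner_smul_left, inner_smul_right, h.G_apply,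
    Finset.sum_mul, Finset.mul_sum]
  calc ∑ a, ∑ b, ∑ c, conj (B c b) * B c a * ⟪Ph B Bi (Y b), Ph B Bi (X a)⟫_ℂ
      = ∑ a, ∑ c, ∑ b, conj (B c b) * B c a * ⟪Ph B Bi (Y b), Ph B Bi (X a)⟫_ℂ :=
        Finset.sum_congr rfl fun i _ => Finset.sum_comm
    _ = ∑ c, ∑ a, ∑ b, conj (B c b) * B c a * ⟪Ph B Bi (Y b), Ph B Bi (X a)⟫_ℂ := Finset.sum_comm
    _ = _ := Finset.sum_congr rfl fun c _ => Finset.sum_congr rfl fun a _ =>
        Finset.sum_congr rfl fun b _ => by ring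

lemma Sq.sum_eq' {G K B Bi : Mt n ℂ} (h : Sq G K B Bi) (X Y : Fin n → Fin n → Mt n ℂ) :
    ∑ a, ∑ b, G b a * ⟪Ph B Bi (Y a), Ph B Bi (X b)⟫_ℂ =
      ∑ e, ⟪Ph B Bi (∑ a, conj (B e a) • Y a), Ph B Bi (∑ b, conj (B e b) • X b)⟫_ℂ := by
  simp only [map_sum, map_smul, sum_inner, inner_sum, inner_smul_left, inner_smul_right, h.G_apply,
    Finset.sum_mul, Finset.mul_sum, RingHomCompTriple.comp_apply, RingHom.id_apply,
    Complex.conj_conj]
  calc ∑ a, ∑ b, ∑ c, conj (B c b) * B c a * ⟪Ph B Bi (Y a), Ph B Bi (X b)⟫_ℂ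
      = ∑ a, ∑ c, ∑ b, conj (B c b) * B c a * ⟪Ph B Bi (Y a), Ph B Bi (X b)⟫_ℂ :=
        Finset.sum_congr rfl fun i _ => Finset.sum_comm
    _ = ∑ c, ∑ a, ∑ b, conj (B c b) * B c a * ⟪Ph B Bi (Y a), Ph B Bi (X b)⟫_ℂ := Finset.sum_comm
    _ = ∑ c, ∑ b, ∑ a, conj (B c b) * B c a * ⟪Ph B Bi (Y a), Ph B Bi (X b)⟫_ℂ :=
        Finset.sum_congr rfl fun i _ => Finset.sum_comm
    _ = _ := Finset.sum_congr rfl fun c _ => Finset.sum_congr rfl fun a _ =>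
        Finset.sum_congr rfl fun b _ => by ring

/-- squared Frobenius norm -/
def fr (M : Mt n ℂ) : ℝ := ∑ i, ∑ j, ‖M i j‖ ^ 2

lemma fr_nonneg (M : Mt n ℂ) : 0 ≤ fr M :=
  Finset.sum_nonneg fun _ _ => Finset.sum_nonneg fun _ _ => sq_nonneg _

lemma trace_self (M : Mt n ℂ) : (M * Mᴴ).trace = (fr M : ℂ) := by
  simp only [Matrix.trace, Matrix.diag_apply, Matrix.mul_apply, Matrix.conjTranspose_apply, fr,
    Complex.ofReal_sum]
  refine Finset.sum_congr rfl fun i _ => Finset.sum_congr rfl fun j _ => ?_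
  rw [← starRingEnd_apply, Complex.mul_conj, Complex.normSq_eq_norm_sq]

lemma fr_mul_le (M N : Mt n ℂ) : fr (M * N) ≤ fr M * fr N := by
  have h1 : ∀ i j, ‖(M * N) i j‖ ^ 2 ≤ (∑ k, ‖M i k‖ ^ 2) * (∑ k, ‖N k j‖ ^ 2) := by
    intro i j
    have h2 : ‖(M * N) i j‖ ≤ ∑ k, ‖M i k‖ * ‖N k j‖ := by
      rw [Matrix.mul_apply]
      exact (norm_sum_le _ _).trans (Finset.sum_le_sum fun k _ => (norm_mul_le _ _))
    calc ‖(M * N) i j‖ ^ 2 ≤ (∑ k, ‖M i k‖ * ‖N k j‖) ^ 2 := by gcongr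
      _ ≤ _ := Finset.sum_mul_sq_le_sq_mul_sq _ _ _
  calc fr (M * N) ≤ ∑ i, ∑ j, (∑ k, ‖M i k‖ ^ 2) * (∑ k, ‖N k j‖ ^ 2) :=
        Finset.sum_le_sum fun i _ => Finset.sum_le_sum fun j _ => h1 i j
    _ = fr M * fr N := by
        simp only [fr, ← Finset.mul_sum, ← Finset.sum_mul]
        rw [Finset.sum_comm (f := fun j k => ‖N k j‖ ^ 2)]

/-- `‖Ph θ‖²` as a sum of Frobenius norms -/
lemma norm_Ph_sq (B Bi : Mt n ℂ) (M : Fin n → Mt n ℂ) :
    ‖Ph B Bi M‖ ^ 2 = ∑ c, fr (PhM B Bi M c) := by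
  have h1 := inner_Ph B Bi M M
  rw [inner_self_eq_norm_sq_to_K] at h1
  simp only [trace_self] at h1
  have h2 : ((‖Ph B Bi M‖ ^ 2 : ℝ) : ℂ) = ((∑ c, fr (PhM B Bi M c) : ℝ) : ℂ) := by
    push_cast
    exact h1
  exact_mod_cast h2

lemma le_norm_Ph (B Bi : Mt n ℂ) (M : Fin n → Mt n ℂ) (c p q : Fin n) :
    ‖PhM B Bi M c p q‖ ≤ ‖Ph B Bi M‖ := by
  have := PiLp.norm_apply_le (Ph B Bi M) (c, p, q)
  rwa [Ph_apply] at this

/-- entries are bounded by `c` -/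
def EB (M : Mt n ℂ) (c : ℝ) : Prop := ∀ i j, ‖M i j‖ ≤ c

lemma EB.mono {M : Mt n ℂ} {c c' : ℝ} (h : EB M c) (hc : c ≤ c') : EB M c' :=
  fun i j => (h i j).trans hc

lemma EB.add {M N : Mt n ℂ} {x y : ℝ} (h : EB M x) (h' : EB N y) : EB (M + N) (x + y) :=
  fun i j => (norm_add_le _ _).trans (add_le_add (h i j) (h' i j))

lemma EB.sub {M N : Mt n ℂ} {x y : ℝ} (h : EB M x) (h' : EB N y) : EB (M - N) (x + y) :=
  fun i j => (norm_sub_le _ _).trans (add_le_add (h i j) (h' i j))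

lemma EB.smul {M : Mt n ℂ} {x y : ℝ} {a : ℂ} (h : EB M x) (ha : ‖a‖ ≤ y) :
    EB (a • M) (y * x) := fun i j => by
  rw [Matrix.smul_apply, smul_eq_mul, norm_mul]
  exact mul_le_mul ha (h i j) (norm_nonneg _) ((norm_nonneg _).trans ha)

lemma EB.sum {M : Fin n → Mt n ℂ} {x : ℝ} (h : ∀ i, EB (M i) x) : EB (∑ i, M i) (n * x) :=
  fun i j => by
    rw [Matrix.sum_apply]
    refine (norm_sum_le _ _).trans ((Finset.sum_le_sum fun k _ => h k i j).trans ?_)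
    simp

lemma EB.mul {M N : Mt n ℂ} {x y : ℝ} (h : EB M x) (h' : EB N y) : EB (M * N) (n * (x * y)) :=
  fun i j => by
    rw [Matrix.mul_apply]
    have h1 : ∀ k, ‖M i k * N k j‖ ≤ x * y := fun k => by
      rw [norm_mul]
      exact mul_le_mul (h i k) (h' k j) (norm_nonneg _) ((norm_nonneg _).trans (h i k))
    refine (norm_sum_le _ _).trans ((Finset.sum_le_sum fun k _ => h1 k).trans ?_)
    simp

lemma EB.trace {M : Mt n ℂ} {x : ℝ} (h : EB M x) : ‖M.trace‖ ≤ n * x := by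
  rw [Matrix.trace]
  refine (norm_sum_le _ _).trans ((Finset.sum_le_sum fun k _ => h k k).trans ?_)
  simp

lemma EB.one : EB (1 : Mt n ℂ) 1 := fun i j => by
  by_cases h : i = j
  · subst h; simp
  · simp [Matrix.one_apply_ne h]

lemma pair_bound {G K : Mt n ℂ} {M N : Fin n → Mt n ℂ} {β x y : ℝ} (hG : EB G β) (hK : EB K β)
    (hM : ∀ i, EB (M i) x) (hN : ∀ i, EB (N i) y) :
    ‖pair G K M N‖ ≤ n * (n * (β * (n * (n * (n * (n * (β * x) * β) * y))))) := by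
  rw [pair_apply]
  have h1 : ∀ i j, ‖G j i * (G * M i * K * N j).trace‖ ≤
      β * (n * (n * (n * (n * (β * x) * β) * y))) := by
    intro i j
    rw [norm_mul]
    exact mul_le_mul (hG j i) ((((hG.mul (hM i)).mul hK).mul (hN j)).trace) (norm_nonneg _)
      ((norm_nonneg _).trans (hG j i))
  refine (norm_sum_le _ _).trans ((Finset.sum_le_sum fun i _ => (norm_sum_le _ _).trans
    (Finset.sum_le_sum fun j _ => h1 i j)).trans ?_)
  simp

section sqbounds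
variable {G K B Bi : Mt n ℂ} {β : ℝ}

lemma Sq.B_bound (h : Sq G K B Bi) (hβ : 1 ≤ β) (hG : EB G β) : EB B β := by
  intro c i
  have h1 : ((∑ c, ‖B c i‖ ^ 2 : ℝ) : ℂ) = G i i := by
    rw [h.G_apply]
    push_cast
    refine Finset.sum_congr rfl fun c _ => ?_
    rw [mul_comm, Complex.mul_conj, Complex.normSq_eq_norm_sq]
    push_cast; rfl
  have h2 : (∑ c, ‖B c i‖ ^ 2 : ℝ) ≤ β := by
    have h3 := hG i i
    rw [← h1, Complex.norm_real, Real.norm_eq_abs] at h3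
    exact (le_abs_self _).trans h3
  have h4 : ‖B c i‖ ^ 2 ≤ β := (Finset.single_le_sum (f := fun c => ‖B c i‖ ^ 2)
    (fun _ _ => sq_nonneg _) (Finset.mem_univ c)).trans h2
  nlinarith [norm_nonneg (B c i)]

lemma Sq.Bi_bound (h : Sq G K B Bi) (hβ : 1 ≤ β) (hK : EB K β) : EB Bi β := by
  intro i c
  have h1 : ((∑ c, ‖Bi i c‖ ^ 2 : ℝ) : ℂ) = K i i := by
    rw [h.hK, Matrix.mul_apply]
    push_cast
    refine Finset.sum_congr rfl fun c _ => ?_
    rw [Matrix.conjTranspose_apply, ← starRingEnd_apply, Complex.mul_conj,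
      Complex.normSq_eq_norm_sq]
    push_cast; rfl
  have h2 : (∑ c, ‖Bi i c‖ ^ 2 : ℝ) ≤ β := by
    have h3 := hK i i
    rw [← h1, Complex.norm_real, Real.norm_eq_abs] at h3
    exact (le_abs_self _).trans h3
  have h4 : ‖Bi i c‖ ^ 2 ≤ β := (Finset.single_le_sum (f := fun c => ‖Bi i c‖ ^ 2)
    (fun _ _ => sq_nonneg _) (Finset.mem_univ c)).trans h2
  nlinarith [norm_nonneg (Bi i c)]

lemma Sq.recover (h : Sq G K B Bi) (M : Fin n → Mt n ℂ) (a : Fin n) :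
    M a = ∑ c, Bi a c • (Bi * PhM B Bi M c * B) := by
  have h1 : ∀ c, Bi * PhM B Bi M c * B = ∑ i, B c i • M i := by
    intro c
    simp only [PhM, Matrix.mul_sum, Matrix.sum_mul, Matrix.mul_smul, Matrix.smul_mul]
    refine Finset.sum_congr rfl fun i _ => ?_
    congr 1
    have : Bi * (B * M i * Bi) * B = (Bi * B) * M i * (Bi * B) := by simp only [Matrix.mul_assoc]
    rw [this, h.BiB, Matrix.one_mul, Matrix.mul_one]
  simp only [h1, Finset.smul_sum, smul_smul]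
  rw [Finset.sum_comm]
  simp only [← Finset.sum_smul, ← Matrix.mul_apply, h.BiB]
  rw [Finset.sum_eq_single a]
  · simp
  · intro b _ hb
    rw [Matrix.one_apply_ne hb.symm, zero_smul]
  · simp

/-- entries of a family are bounded by its norm -/
lemma Sq.entry_le (h : Sq G K B Bi) (hβ : 1 ≤ β) (hG : EB G β) (hK : EB K β)
    (M : Fin n → Mt n ℂ) (a : Fin n) :
    EB (M a) (n * (β * (n * (n * (β * ‖Ph B Bi M‖) * β)))) := by
  rw [h.recover M a]
  refine EB.sum fun c => ?_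
  have h1 : EB (PhM B Bi M c) ‖Ph B Bi M‖ := fun p q => le_norm_Ph B Bi M c p q
  exact (((h.Bi_bound hβ hK).mul h1).mul (h.B_bound hβ hG)).smul (h.Bi_bound hβ hK a c)

/-- the trace of `K`-norms dominates `S` -/
lemma Sq.trace_ge (h : Sq G K B Bi) (hG : EB G β) (M : Fin n → Mt n ℂ) :
    ∃ τ : ℝ, ∑ a, ∑ b, G b a * (M a * K * (M b)ᴴ).trace = (τ : ℂ) ∧
      ‖Ph B Bi M‖ ^ 2 ≤ n * β * τ := by
  refine ⟨∑ c, fr (∑ a, B c a • (M a * Bi)), ?_, ?_⟩
  · have h1 : ∀ a b, (M a * K * (M b)ᴴ).trace = ((M a * Bi) * (M b * Bi)ᴴ).trace := by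
      intro a b
      rw [h.hK, Matrix.conjTranspose_mul]
      simp only [Matrix.mul_assoc]
    rw [Complex.ofReal_sum]
    simp only [← trace_self, h1, h.G_apply, Matrix.conjTranspose_sum, Matrix.conjTranspose_smul,
      Matrix.sum_mul, Matrix.mul_sum, Matrix.trace_sum, Matrix.smul_mul, Matrix.mul_smul,
      Matrix.trace_smul, smul_eq_mul, Finset.mul_sum, Finset.sum_mul]
    calc ∑ a, ∑ b, ∑ c, conj (B c b) * B c a * ((M a * Bi) * (M b * Bi)ᴴ).trace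
        = ∑ a, ∑ c, ∑ b, conj (B c b) * B c a * ((M a * Bi) * (M b * Bi)ᴴ).trace :=
          Finset.sum_congr rfl fun i _ => Finset.sum_comm
      _ = ∑ c, ∑ a, ∑ b, conj (B c b) * B c a * ((M a * Bi) * (M b * Bi)ᴴ).trace :=
          Finset.sum_comm
      _ = ∑ c, ∑ b, ∑ a, conj (B c b) * B c a * ((M a * Bi) * (M b * Bi)ᴴ).trace :=
          Finset.sum_congr rfl fun i _ => Finset.sum_comm
      _ = _ := Finset.sum_congr rfl fun c _ => Finset.sum_congr rfl fun a _ =>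
          Finset.sum_congr rfl fun b _ => by rw [starRingEnd_apply]; ring
  · rw [norm_Ph_sq, Finset.mul_sum]
    refine Finset.sum_le_sum fun c _ => ?_
    have h1 : PhM B Bi M c = B * (∑ a, B c a • (M a * Bi)) := by
      simp only [PhM, Matrix.mul_sum, Matrix.mul_smul, Matrix.mul_assoc]
    have h2 : fr B ≤ n * β := by
      have h3 : ((fr B : ℝ) : ℂ) = G.trace := by
        rw [← trace_self, h.hG, Matrix.trace_mul_comm]
      have h4 := hG.trace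
      rw [← h3, Complex.norm_real, Real.norm_eq_abs] at h4
      exact (le_abs_self _).trans h4
    rw [h1]
    exact (fr_mul_le _ _).trans (mul_le_mul_of_nonneg_right h2 (fr_nonneg _))

end sqbounds

/-- the gradient inequality `|∂S|² ≤ 2 S (|Dθ|² + |∂̄θ|²)` -/
lemma Sq.grad {G K B Bi : Mt n ℂ} (h : Sq G K B Bi) (θ : Fin n → Mt n ℂ)
    (X Y : Fin n → Fin n → Mt n ℂ) (w : Fin n → ℂ)
    (hw : ∀ a, w a = ⟪Ph B Bi θ, Ph B Bi (X a)⟫_ℂ + ⟪Ph B Bi (Y a), Ph B Bi θ⟫_ℂ) :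
    (∑ i, ∑ j, G j i * w i * conj (w j)).re ≤ 2 * ‖Ph B Bi θ‖ ^ 2 *
      (∑ e, ‖Ph B Bi (∑ a, B e a • X a)‖ ^ 2 + ∑ e, ‖Ph B Bi (∑ a, conj (B e a) • Y a)‖ ^ 2) := by
  have h1 : ∑ i, ∑ j, G j i * w i * conj (w j) = ((∑ e, ‖∑ i, B e i * w i‖ ^ 2 : ℝ) : ℂ) := by
    push_cast
    have h2 : ∀ e, (‖∑ i, B e i * w i‖ : ℂ) ^ 2 = ∑ i, ∑ j, B e i * w i * conj (B e j * w j) := by
      intro e
      rw [← Complex.ofReal_pow, ← Complex.normSq_eq_norm_sq, ← Complex.mul_conj, map_sum,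
        Finset.sum_mul_sum]
    simp only [h2, h.G_apply, Finset.sum_mul, map_mul]
    calc ∑ i, ∑ j, ∑ c, conj (B c j) * B c i * w i * conj (w j)
        = ∑ i, ∑ c, ∑ j, conj (B c j) * B c i * w i * conj (w j) :=
          Finset.sum_congr rfl fun i _ => Finset.sum_comm
      _ = ∑ c, ∑ i, ∑ j, conj (B c j) * B c i * w i * conj (w j) := Finset.sum_comm
      _ = _ := Finset.sum_congr rfl fun c _ => Finset.sum_congr rfl fun a _ =>
          Finset.sum_congr rfl fun b _ => by ring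
  rw [h1, Complex.ofReal_re, ← Finset.sum_add_distrib, Finset.mul_sum]
  refine Finset.sum_le_sum fun e _ => ?_
  have h3 : ∑ i, B e i * w i = ⟪Ph B Bi θ, Ph B Bi (∑ a, B e a • X a)⟫_ℂ
      + ⟪Ph B Bi (∑ a, conj (B e a) • Y a), Ph B Bi θ⟫_ℂ := by
    simp only [hw, map_sum, map_smul, sum_inner, inner_sum, inner_smul_left, inner_smul_right,
      Complex.conj_conj, mul_add, Finset.sum_add_distrib]
  have h4 : ‖∑ i, B e i * w i‖ ≤ ‖Ph B Bi θ‖ * ‖Ph B Bi (∑ a, B e a • X a)‖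
      + ‖Ph B Bi (∑ a, conj (B e a) • Y a)‖ * ‖Ph B Bi θ‖ := by
    rw [h3]
    exact (norm_add_le _ _).trans (add_le_add (norm_inner_le_norm _ _) (norm_inner_le_norm _ _))
  set s := ‖Ph B Bi θ‖
  set p := ‖Ph B Bi (∑ a, B e a • X a)‖
  set q := ‖Ph B Bi (∑ a, conj (B e a) • Y a)‖
  calc ‖∑ i, B e i * w i‖ ^ 2 ≤ (s * p + q * s) ^ 2 := by gcongr
    _ ≤ 2 * s ^ 2 * (p ^ 2 + q ^ 2) := by nlinarith [mul_nonneg (sq_nonneg s) (sq_nonneg (p - q))]

/-- the lower order terms in the Bochner formula -/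
def err (G K T : Mt n ℂ) (θ dT dbT : Fin n → Mt n ℂ) : ℂ :=
  pair G K (fun i => (dT i - θ i * T) * G) (fun j => (θ j)ᴴ)
      + pair G K θ (fun j => G * (dbT j - T * (θ j)ᴴ)
      - (θ j)ᴴ * (1 + G * T) + (1 + G * T) * (θ j)ᴴ - ∑ q, (1 + G * T) q j • (θ q)ᴴ)

/-- lower order terms -/
lemma error_bound (n : ℕ) (β : ℝ) (hβ : 1 ≤ β) : ∃ C : ℝ, 0 ≤ C ∧
    ∀ (G K T B Bi : Mt n ℂ) (θ dT dbT : Fin n → Mt n ℂ), Sq G K B Bi → EB G β → EB K β → EB T β →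
      (∀ i, EB (dT i) β) → (∀ i, EB (dbT i) β) →
      ‖err G K T θ dT dbT‖ ≤ C * (1 + ‖Ph B Bi θ‖ ^ 2) := by
  have hn : (0 : ℝ) ≤ n := Nat.cast_nonneg n
  have hβ0 : (0 : ℝ) ≤ β := zero_le_one.trans hβ
  obtain ⟨c1, hc1⟩ : ∃ c1 : ℝ, c1 = n * (β * (n * (n * (β * β)))) := ⟨_, rfl⟩
  have hc10 : 0 ≤ c1 := by rw [hc1]; positivity
  obtain ⟨c2, hc2⟩ : ∃ c2 : ℝ, c2 = 1 + n * (β * β) := ⟨_, rfl⟩
  have hc20 : 0 ≤ c2 := by rw [hc2]; positivity
  obtain ⟨c3, hc3⟩ : ∃ c3 : ℝ, c3 = n * (n * (β * (n * (n * (n * (n * (β * 1) * β) * 1))))) :=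
    ⟨_, rfl⟩
  have hc30 : 0 ≤ c3 := by rw [hc3]; positivity
  obtain ⟨q1, hq1⟩ : ∃ q1 : ℝ, q1 = n * ((β + n * (c1 * β)) * β) := ⟨_, rfl⟩
  obtain ⟨q2, hq2⟩ : ∃ q2 : ℝ, q2 = n * (β * (β + n * (β * c1))) + n * (c1 * c2)
    + n * (c2 * c1) + n * (c2 * c1) := ⟨_, rfl⟩
  have hq10 : 0 ≤ q1 := by rw [hq1]; positivity
  have hq20 : 0 ≤ q2 := by rw [hq2]; positivity
  refine ⟨c3 * (q1 * c1 + c1 * q2) * 2, by positivity, ?_⟩
  intro G K T B Bi θ dT dbT h hG hK hT hdT hdbT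
  obtain ⟨ϑ, hϑ'⟩ : ∃ ϑ : Fin n → Mt n ℂ, ϑ = fun j => (θ j)ᴴ := ⟨_, rfl⟩
  have hϑ : ∀ i, ϑ i = (θ i)ᴴ := fun i => by rw [hϑ']
  have herr : err G K T θ dT dbT = pair G K (fun i => (dT i - θ i * T) * G) ϑ
      + pair G K θ (fun j => G * (dbT j - T * ϑ j)
      - ϑ j * (1 + G * T) + (1 + G * T) * ϑ j - ∑ q, (1 + G * T) q j • ϑ q) := by
    rw [err, hϑ']
  rw [herr]
  set s := ‖Ph B Bi θ‖ with hs
  have hs0 : 0 ≤ s := norm_nonneg _
  have e1 : ∀ i, EB (θ i) (c1 * (1 + s)) := fun i => (h.entry_le hβ hG hK θ i).mono (by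
    rw [hc1]
    have : (n : ℝ) * (β * (n * (n * (β * s) * β))) = n * (β * (n * (n * (β * β)))) * s := by ring
    rw [this]
    have : 0 ≤ (n : ℝ) * (β * (n * (n * (β * β)))) := by positivity
    nlinarith)
  have e2 : ∀ i, EB (ϑ i) (c1 * (1 + s)) := fun i p q => by
    rw [hϑ, Matrix.conjTranspose_apply, norm_star]; exact e1 i q p
  have e3 : EB (1 + G * T) c2 := by
    rw [hc2]; exact EB.one.add (hG.mul hT)
  have e4 : ∀ i, EB ((dT i - θ i * T) * G) (q1 * (1 + s)) := fun i =>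
    (((hdT i).sub ((e1 i).mul hT)).mul hG).mono (by
      rw [hq1]
      have h0 : 0 ≤ (n : ℝ) * (β * β) * s := by positivity
      nlinarith [h0])
  have e5 : ∀ j, EB (G * (dbT j - T * ϑ j)
      - ϑ j * (1 + G * T) + (1 + G * T) * ϑ j - ∑ q, (1 + G * T) q j • ϑ q) (q2 * (1 + s)) :=
    fun j => ((((hG.mul ((hdbT j).sub (hT.mul (e2 j)))).sub ((e2 j).mul e3)).add
      (e3.mul (e2 j))).sub (EB.sum fun q => (e2 q).smul (e3 q j))).mono (by
      rw [hq2]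
      have h0 : 0 ≤ (n : ℝ) * (β * β) * s := by positivity
      nlinarith [h0])
  have f1 := pair_bound hG hK e4 e2
  have f2 := pair_bound hG hK e1 e5
  refine (norm_add_le _ _).trans ((add_le_add f1 f2).trans ?_)
  have g1 : (n : ℝ) * (n * (β * (n * (n * (n * (n * (β * (q1 * (1 + s))) * β) * (c1 * (1 + s)))))))
      = c3 * (q1 * c1) * (1 + s) ^ 2 := by rw [hc3]; ring
  have g2 : (n : ℝ) * (n * (β * (n * (n * (n * (n * (β * (c1 * (1 + s))) * β) * (q2 * (1 + s)))))))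
      = c3 * (c1 * q2) * (1 + s) ^ 2 := by rw [hc3]; ring
  rw [g1, g2, ← add_mul, ← mul_add]
  have g3 : (1 + s) ^ 2 ≤ 2 * (1 + s ^ 2) := by nlinarith [sq_nonneg (1 - s)]
  calc c3 * (q1 * c1 + c1 * q2) * (1 + s) ^ 2 ≤ c3 * (q1 * c1 + c1 * q2) * (2 * (1 + s ^ 2)) := by
        gcongr
    _ = _ := by ring

end Vale.Agent.P272.K.C3
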