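import Vale.Agent.P272.K.C3.Iface
import Vale.Agent.P272.K.C3.Lin
import Vale.Agent.P272.K.P1.SmAlg
import Vale.Agent.P272.K.C2.Mat

/-! Block C3, part III: instantiation of the Bochner formula in the ring of smooth functions. -/

set_option linter.unusedSectionVars false
set_option linter.unusedSimpArgs false

open Matrix Finset TopologicalSpace
open scoped ComplexOrder InnerProductSpace ComplexConjugate ContDiff Topology

noncomputable section

namespace Vale.Agent.P272.K.C3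

open P1 P1.Sm

section der
variable {n : ℕ} {A : Type*} [CommRing A] [StarRing A] (W : WAlg n A)

/-- `d i` as a derivation -/
def der (i : Fin n) : Derivation ℤ A A :=
  Derivation.mk' (W.dHom i).toIntLinearMap (by
    intro a b
    change W.d i (a * b) = a • W.d i b + b • W.d i a
    rw [W.d_mul, smul_eq_mul, smul_eq_mul]; ring)

/-- `db i` as a derivation -/
def derb (i : Fin n) : Derivation ℤ A A :=
  Derivation.mk' (W.dbHom i).toIntLinearMap (by
    intro a b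
    change W.db i (a * b) = a • W.db i b + b • W.db i a
    rw [W.db_mul, smul_eq_mul, smul_eq_mul]; ring)

@[simp] lemma der_apply (i : Fin n) (a : A) : der W i a = W.d i a := rfl
@[simp] lemma derb_apply (i : Fin n) (a : A) : derb W i a = W.db i a := rfl

lemma mD_der (i : Fin n) (M : Mt n A) : mD (der W i) M = W.D i M := rfl
lemma mD_derb (i : Fin n) (M : Mt n A) : mD (derb W i) M = W.Db i M := rfl

/-- conjugation exchanges the covariant derivatives -/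
lemma Db_eq_Dd_conj (b : Fin n) (t : Mt n A) (M : Fin n → Mt n A) (j : Fin n) :
    Db (derb W b) tᴴ (fun j => (M j)ᴴ) j = (Dd (der W b) t M j)ᴴ := by
  simp only [Db, Dd, mD_der, mD_derb, W.Db_conjTranspose, Matrix.conjTranspose_sub,
    Matrix.conjTranspose_add, Matrix.conjTranspose_mul, Matrix.conjTranspose_sum,
    Matrix.conjTranspose_smul, Matrix.conjTranspose_apply]

lemma fD_conj (a : Fin n) (M : Fin n → Mt n A) (j : Fin n) :
    fD (der W a) (fun j => (M j)ᴴ) j = (fD (derb W a) M j)ᴴ := by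
  simp only [fD, mD_der, mD_derb, W.D_conjTranspose]

end der

variable {n : ℕ} {O : Opens (Cm n)}

/-- evaluation of the pairing -/
lemma ev_pair (x : O) (G K : Mt n (Sm O)) (M N : Fin n → Mt n (Sm O)) :
    ev x (pair G K M N) = pair (evM x G) (evM x K) (fun i => evM x (M i)) (fun i => evM x (N i)) := by
  simp only [pair_apply, map_sum, map_mul, ev_trace, evM_mul, evM_apply]

/-- the data of the Calabi estimate -/
structure Data (O : Opens (Cm n)) (K Θ : Cm n → Matrix (Fin n) (Fin n) ℂ) : Prop where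
  hKs : ∀ i j, ∀ x ∈ O, ContDiffAt ℝ ∞ (fun z => K z i j) x
  hKd : ∀ x ∈ O, (K x).PosDef
  hKk : ∀ x ∈ O, ∀ i j k, dz k (fun y => K y i j) x = dz i (fun y => K y k j) x
  hTs : ∀ i j, ∀ x ∈ O, ContDiffAt ℝ ∞ (fun z => Θ z i j) x
  hR : ∀ x ∈ O, cHess (fun y => Real.log (K y).det.re) x = K x + Θ x

namespace Data
variable {K Θ : Cm n → Matrix (Fin n) (Fin n) ℂ} (h : Data O K Θ)
include h

lemma det_ne {x : Cm n} (hx : x ∈ O) : (K x).det ≠ 0 := (h.hKd x hx).det_pos.ne'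

lemma inv_smooth : ∀ i j, ∀ x ∈ O, ContDiffAt ℝ ∞ (fun z => (K z)⁻¹ i j) x := fun i j x hx =>
  C2.MC.inv (fun i j => h.hKs i j x hx) (h.det_ne hx) i j

lemma det_re {x : Cm n} (hx : x ∈ O) : ((K x).det.re : ℂ) = (K x).det := by
  have h1 := (h.hKd x hx).det_pos
  have h2 := (RCLike.pos_iff (K := ℂ)).1 h1
  apply Complex.ext
  · simp
  · simpa using h2.2.symm

lemma det_re_pos {x : Cm n} (hx : x ∈ O) : 0 < (K x).det.re :=
  ((RCLike.pos_iff (K := ℂ)).1 (h.hKd x hx).det_pos).1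

lemma log_smooth : ∀ x ∈ O, ContDiffAt ℝ ∞ (fun y => ((Real.log (K y).det.re : ℝ) : ℂ)) x := by
  intro x hx
  have h1 : ContDiffAt ℝ ∞ (fun y => (K y).det) x := C2.MC.det (fun i j => h.hKs i j x hx)
  have h2 : ContDiffAt ℝ ∞ (fun y => (K y).det.re) x :=
    Complex.reCLM.contDiff.contDiffAt.comp x h1
  exact C2.contDiffAt_ofReal (h2.log (h.det_re_pos hx).ne')

lemma dz_log {x : Cm n} (hx : x ∈ O) (k : Fin n) :
    dz k (fun y => ((Real.log (K y).det.re : ℝ) : ℂ)) x = ((K x)⁻¹ * C2.DM k K x).trace := by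
  have hMD : C2.MD K x := fun i j => (h.hKs i j x hx).differentiableAt (by simp)
  have h1 : ContDiffAt ℝ ∞ (fun y => (K y).det) x := C2.MC.det (fun i j => h.hKs i j x hx)
  have h2 : ContDiffAt ℝ ∞ (fun y => (K y).det.re) x :=
    Complex.reCLM.contDiff.contDiffAt.comp x h1
  have h3 : (fun y => (((K y).det.re : ℝ) : ℂ)) =ᶠ[𝓝 x] fun y => (K y).det := by
    filter_upwards [O.isOpen.mem_nhds hx] with y hy using h.det_re hy
  rw [C2.dz_comp_real k (Real.hasDerivAt_log (h.det_re_pos hx).ne')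
    (h2.differentiableAt (by simp)), C2.dz_congr k h3, C2.dz_det hMD (h.det_ne hx)]
  rw [← mul_assoc, Complex.ofReal_inv, h.det_re hx, inv_mul_cancel₀ (h.det_ne hx), one_mul]


/-- `K` as a matrix of smooth functions -/
def KK : Mt n (Sm O) := mkM K h.hKs

/-- `K⁻¹` as a matrix of smooth functions -/
def GG : Mt n (Sm O) := mkM (fun z => (K z)⁻¹) h.inv_smooth

/-- `Θ` as a matrix of smooth functions -/
def TT : Mt n (Sm O) := mkM Θ h.hTs

/-- the connection matrices -/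
def th (a : Fin n) : Mt n (Sm O) := mD (der (W O) a) h.KK * h.GG

/-- conjugate connection matrices -/
def thb (b : Fin n) : Mt n (Sm O) := h.GG * mD (derb (W O) b) h.KK

lemma ev_KK (x : O) : evM x h.KK = K x := evM_mkM x K h.hKs
lemma ev_GG (x : O) : evM x h.GG = (K x)⁻¹ := evM_mkM x _ h.inv_smooth
lemma ev_TT (x : O) : evM x h.TT = Θ x := evM_mkM x Θ h.hTs

lemma isUnit_det (x : O) : IsUnit (K x).det := isUnit_iff_ne_zero.2 (h.det_ne x.2)

lemma KG : h.KK * h.GG = 1 := evM_ext fun x => by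
  rw [evM_mul, h.ev_KK, h.ev_GG, evM_one, Matrix.mul_nonsing_inv _ (h.isUnit_det x)]

lemma GK : h.GG * h.KK = 1 := evM_ext fun x => by
  rw [evM_mul, h.ev_KK, h.ev_GG, evM_one, Matrix.nonsing_inv_mul _ (h.isUnit_det x)]

lemma KK_star : h.KKᴴ = h.KK := evM_ext fun x => by
  rw [evM_conjTranspose, h.ev_KK, (h.hKd x x.2).isHermitian.eq]

lemma GG_star : h.GGᴴ = h.GG := evM_ext fun x => by
  rw [evM_conjTranspose, h.ev_GG, (h.hKd x x.2).inv.isHermitian.eq]

lemma ev_D_KK (x : O) (k i j : Fin n) :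
    ev x (d k (h.KK i j)) = dz k (fun y => K y i j) x := by
  have : h.KK i j = Sm.mk (fun z => K z i j) (h.hKs i j) := rfl
  rw [this, ev_d_mk]

lemma kah (a i j : Fin n) : d a (h.KK i j) = d i (h.KK a j) := ev_ext fun x => by
  rw [h.ev_D_KK, h.ev_D_KK, h.hKk x x.2]

lemma kahb (a i j : Fin n) : db a (h.KK i j) = db j (h.KK i a) := by
  have e : ∀ i j, h.KK i j = star (h.KK j i) := fun i j => by
    conv_lhs => rw [← h.KK_star]
    rfl
  rw [e i j, e i a]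
  have h1 := (W O).db_star a (h.KK j i)
  have h2 := (W O).db_star j (h.KK a i)
  simp only [W_db, W_d] at h1 h2
  rw [h1, h2, h.kah a j i]

lemma kstruct : KStruct (der (W O)) (derb (W O)) h.KK h.GG h.th h.thb :=
  KStruct.mk' (fun a b x => (W O).d_db a b x) (fun a b x => (W O).d_d a b x)
    (fun a b x => (W O).db_db a b x) h.KG h.GK h.kah h.kahb

/-- the function `log det K` -/
def ff : Sm O := Sm.mk (fun y => ((Real.log (K y).det.re : ℝ) : ℂ)) h.log_smooth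

lemma hff (i : Fin n) : der (W O) i h.ff = (h.th i).trace := ev_ext fun x => by
  change ev x (d i h.ff) = _
  rw [ff, ev_d_mk, h.dz_log x.2, ev_trace, th, evM_mul, h.ev_GG, Matrix.trace_mul_comm]
  congr 2
  ext p q
  exact (h.ev_D_KK x i p q).symm

lemma hfft (i j : Fin n) : der (W O) i (derb (W O) j h.ff) = (h.KK + h.TT) i j :=
  ev_ext fun x => by
    change ev x (d i (db j h.ff)) = _
    rw [ff, ev_d_db_mk, ← evM_apply, evM_add, h.ev_KK, h.ev_TT, ← h.hR x x.2]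
    rfl

lemma ric : RicStruct (der (W O)) (derb (W O)) h.KK h.GG h.TT h.th h.thb :=
  h.kstruct.mkRic h.ff h.hff h.hfft

lemma thb_eq (b : Fin n) : h.thb b = (h.th b)ᴴ := by
  rw [thb, th, Matrix.conjTranspose_mul, h.GG_star, mD_der, mD_derb, ← (W O).Db_conjTranspose,
    h.KK_star]

lemma thb_eq' : h.thb = fun b => (h.th b)ᴴ := funext h.thb_eq

lemma Db_eq (b j : Fin n) :
    Db (derb (W O) b) (h.thb b) h.thb j = (Dd (der (W O) b) (h.th b) h.th j)ᴴ := by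
  rw [h.thb_eq', Db_eq_Dd_conj]

lemma fD_eq (a j : Fin n) : fD (der (W O) a) h.thb j = (fD (derb (W O) a) h.th j)ᴴ := by
  rw [h.thb_eq', fD_conj]

/-- `S = |θ|²` as an element of the ring -/
def SS : Sm O := pair h.GG h.KK h.th h.thb

/-- `S = |θ|²` as a function -/
def S (z : Cm n) : ℝ := (fn h.SS z).re


/-- values of the connection matrices -/
def thx (x : O) (a : Fin n) : Mt n ℂ := evM x (h.th a)

/-- values of `D_a θ` -/
def Xx (x : O) (a i : Fin n) : Mt n ℂ := evM x (Dd (der (W O) a) (h.th a) h.th i)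

/-- values of `∂̄_a θ` -/
def Yx (x : O) (a i : Fin n) : Mt n ℂ := evM x (fD (derb (W O) a) h.th i)

/-- the quadratic terms in the Bochner formula -/
def PN : Sm O :=
  ∑ a, ∑ b, h.GG b a * pair h.GG h.KK (fD (derb (W O) b) h.th) (fD (der (W O) a) h.thb)
  + ∑ a, ∑ b, h.GG b a * pair h.GG h.KK (Dd (der (W O) a) (h.th a) h.th)
    (Db (derb (W O) b) (h.thb b) h.thb)

lemma ev_pair_conj {x : O} {B Bi : Mt n ℂ} (hs : Sq (K x)⁻¹ (K x) B Bi)
    (M N N' : Fin n → Mt n (Sm O)) (hN : ∀ j, N' j = (N j)ᴴ) :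
    ev x (pair h.GG h.KK M N') =
      ⟪Ph B Bi (fun i => evM x (N i)), Ph B Bi (fun i => evM x (M i))⟫_ℂ := by
  rw [ev_pair, h.ev_GG, h.ev_KK, ← hs.pair_eq]
  congr 1
  funext j
  rw [hN, evM_conjTranspose]

lemma ev_SS {x : O} {B Bi : Mt n ℂ} (hs : Sq (K x)⁻¹ (K x) B Bi) :
    ev x h.SS = ((‖Ph B Bi (h.thx x)‖ ^ 2 : ℝ) : ℂ) := by
  rw [SS, h.ev_pair_conj hs _ _ _ h.thb_eq]
  change ⟪Ph B Bi (h.thx x), Ph B Bi (h.thx x)⟫_ℂ = _
  rw [inner_self_eq_norm_sq_to_K]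
  push_cast
  rfl

lemma ev_dS {x : O} {B Bi : Mt n ℂ} (hs : Sq (K x)⁻¹ (K x) B Bi) (a : Fin n) :
    ev x (d a h.SS) = ⟪Ph B Bi (h.thx x), Ph B Bi (h.Xx x a)⟫_ℂ
      + ⟪Ph B Bi (h.Yx x a), Ph B Bi (h.thx x)⟫_ℂ := by
  have h1 : d a h.SS = pair h.GG h.KK (Dd (der (W O) a) (h.th a) h.th) h.thb
      + pair h.GG h.KK h.th (fD (der (W O) a) h.thb) := h.kstruct.dS a
  rw [h1, map_add, h.ev_pair_conj hs _ _ _ h.thb_eq, h.ev_pair_conj hs _ _ _ (h.fD_eq a)]
  rfl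

lemma ev_PN {x : O} {B Bi : Mt n ℂ} (hs : Sq (K x)⁻¹ (K x) B Bi) :
    ev x h.PN = ((∑ e, ‖Ph B Bi (∑ a, B e a • h.Xx x a)‖ ^ 2
      + ∑ e, ‖Ph B Bi (∑ a, conj (B e a) • h.Yx x a)‖ ^ 2 : ℝ) : ℂ) := by
  have hG : ∀ b a, ev x (h.GG b a) = (K x)⁻¹ b a := fun b a => by
    rw [← evM_apply, h.ev_GG]
  have h1 : ∀ a b, ev x (pair h.GG h.KK (fD (derb (W O) b) h.th) (fD (der (W O) a) h.thb)) =
      ⟪Ph B Bi (h.Yx x a), Ph B Bi (h.Yx x b)⟫_ℂ := fun a b => by
    rw [h.ev_pair_conj hs _ _ _ (h.fD_eq a)]; rfl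
  have h2 : ∀ a b, ev x (pair h.GG h.KK (Dd (der (W O) a) (h.th a) h.th)
      (Db (derb (W O) b) (h.thb b) h.thb)) =
      ⟪Ph B Bi (h.Xx x b), Ph B Bi (h.Xx x a)⟫_ℂ := fun a b => by
    rw [h.ev_pair_conj hs _ _ _ (h.Db_eq b)]; rfl
  have h3 : ev x h.PN = ∑ a, ∑ b, (K x)⁻¹ b a * ⟪Ph B Bi (h.Yx x a), Ph B Bi (h.Yx x b)⟫_ℂ
      + ∑ a, ∑ b, (K x)⁻¹ b a * ⟪Ph B Bi (h.Xx x b), Ph B Bi (h.Xx x a)⟫_ℂ := by
    simp only [PN, map_add, map_sum, map_mul, hG, h1, h2]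
  rw [h3, hs.sum_eq, hs.sum_eq']
  simp only [inner_self_eq_norm_sq_to_K]
  rw [add_comm, Complex.ofReal_add, Complex.ofReal_sum, Complex.ofReal_sum]
  simp only [Complex.ofReal_pow]
  rfl

lemma ev_thb (x : O) (i : Fin n) : evM x (h.thb i) = (h.thx x i)ᴴ := by
  rw [h.thb_eq, evM_conjTranspose]; rfl

lemma ev_one_GT (x : O) : evM x (1 + h.GG * h.TT) = 1 + (K x)⁻¹ * Θ x := by
  rw [evM_add, evM_mul, evM_one, h.ev_GG, h.ev_TT]

lemma ev_E1 (x : O) (i : Fin n) :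
    evM x ((mD (der (W O) i) h.TT - h.th i * h.TT) * h.GG) =
      (evM x (mD (der (W O) i) h.TT) - h.thx x i * Θ x) * (K x)⁻¹ := by
  rw [evM_mul, evM_sub, evM_mul, h.ev_GG, h.ev_TT]; rfl

lemma ev_sum_GT (x : O) (j : Fin n) : evM x (∑ q, (1 + h.GG * h.TT) q j • h.thb q) =
    ∑ q, (1 + (K x)⁻¹ * Θ x) q j • (h.thx x q)ᴴ := by
  rw [← h.ev_one_GT x]
  ext p r
  simp only [evM_apply, Matrix.sum_apply, Matrix.smul_apply, map_sum, smul_eq_mul, map_mul,
    ← h.ev_thb]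

lemma ev_E2 (x : O) (j : Fin n) :
    evM x (h.GG * (mD (derb (W O) j) h.TT - h.TT * h.thb j)
      - h.thb j * (1 + h.GG * h.TT) + (1 + h.GG * h.TT) * h.thb j
      - ∑ q, (1 + h.GG * h.TT) q j • h.thb q) =
      (K x)⁻¹ * (evM x (mD (derb (W O) j) h.TT) - Θ x * (h.thx x j)ᴴ)
      - (h.thx x j)ᴴ * (1 + (K x)⁻¹ * Θ x) + (1 + (K x)⁻¹ * Θ x) * (h.thx x j)ᴴ
      - ∑ q, (1 + (K x)⁻¹ * Θ x) q j • (h.thx x q)ᴴ := by
  rw [evM_sub, h.ev_sum_GT, evM_add, evM_sub, evM_mul, evM_mul, evM_mul, evM_sub, evM_mul,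
    h.ev_one_GT, h.ev_thb, h.ev_GG, h.ev_TT]

lemma ring_boch : ∑ a, ∑ b, h.GG b a * d a (db b h.SS) =
      pair h.GG h.KK (fun i => (mD (der (W O) i) h.TT - h.th i * h.TT) * h.GG) h.thb
      + h.PN
      + pair h.GG h.KK h.th (fun j => h.GG * (mD (derb (W O) j) h.TT - h.TT * h.thb j)
      - h.thb j * (1 + h.GG * h.TT) + (1 + h.GG * h.TT) * h.thb j
      - ∑ q, (1 + h.GG * h.TT) q j • h.thb q) := by
  rw [PN, ← add_assoc]
  exact h.ric.bochner

end Data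

attribute [irreducible] Data.PN Data.SS Data.KK Data.GG Data.TT Data.th Data.thb Data.thx

namespace Data
variable {K Θ : Cm n → Matrix (Fin n) (Fin n) ℂ} (h : Data O K Θ)
include h

lemma thx_eq (x : O) : (fun i => evM x (h.th i)) = h.thx x := by
  unfold thx; rfl

lemma ev_pair' (x : O) (M N : Fin n → Mt n (Sm O)) : ev x (pair h.GG h.KK M N) =
    pair (K x)⁻¹ (K x) (fun i => evM x (M i)) (fun i => evM x (N i)) := by
  rw [ev_pair, h.ev_GG, h.ev_KK]

lemma boch_eq (x : O) :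
    ev x (∑ a, ∑ b, h.GG b a * d a (db b h.SS)) - ev x h.PN =
      err (K x)⁻¹ (K x) (Θ x) (h.thx x) (fun i => evM x (mD (der (W O) i) h.TT))
        (fun j => evM x (mD (derb (W O) j) h.TT)) := by
  have h2 := congrArg (ev x) h.ring_boch
  have a1 := h.ev_pair' x
    (fun i => (mD (der (W O) i) h.TT - h.th i * h.TT) * h.GG) h.thb
  have a2 := h.ev_pair' x h.th
    (fun j => h.GG * (mD (derb (W O) j) h.TT - h.TT * h.thb j)
      - h.thb j * (1 + h.GG * h.TT) + (1 + h.GG * h.TT) * h.thb j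
      - ∑ q, (1 + h.GG * h.TT) q j • h.thb q)
  simp only [h.ev_E1, h.ev_thb] at a1
  simp only [h.ev_E2, h.thx_eq] at a2
  rw [map_add (ev x), map_add (ev x), a1, a2] at h2
  rw [h2, err]
  generalize ev x h.PN = q
  rw [add_assoc, add_comm q, ← add_assoc, add_sub_cancel_right]

end Data

end Vale.Agent.P272.K.C3
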