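import Vale.Agent.P272.K.C3.Inst

/-! Block C3, part IV: the local Calabi estimate from the cutoff statement. -/

set_option linter.unusedSectionVars false
set_option linter.unusedSimpArgs false

open Matrix Finset TopologicalSpace
open scoped ComplexOrder InnerProductSpace ComplexConjugate ContDiff Topology

noncomputable section

namespace Vale.Agent.P272.K.C3

open P1 P1.Sm

variable {n : ℕ}

lemma posSemidef_diag {M : Mt n ℂ} (h : M.PosSemidef) (i : Fin n) : 0 ≤ (M i i).re :=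
  ((RCLike.nonneg_iff (K := ℂ)).1 (h.diag_nonneg (i := i))).1

/-- entry bounds for a metric and its inverse -/
lemma entries_le {K B Bi : Mt n ℂ} {lam Lam : ℝ} (hlam : 0 < lam)
    (h1 : (K - (lam : ℂ) • (1 : Matrix (Fin n) (Fin n) ℂ)).PosSemidef)
    (h2 : ((Lam : ℂ) • (1 : Matrix (Fin n) (Fin n) ℂ) - K).PosSemidef) (hs : Sq K⁻¹ K B Bi) :
    EB K Lam ∧ EB K⁻¹ (n * (1 / lam)) := by
  have a1 : ∀ i, ∑ c, ‖Bi i c‖ ^ 2 ≤ Lam := by
    intro i
    have e1 : ((∑ c, ‖Bi i c‖ ^ 2 : ℝ) : ℂ) = K i i := by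
      rw [hs.hK, Matrix.mul_apply]
      push_cast
      refine Finset.sum_congr rfl fun c _ => ?_
      rw [Matrix.conjTranspose_apply, ← starRingEnd_apply, Complex.mul_conj,
        Complex.normSq_eq_norm_sq]
      push_cast; rfl
    have e2 := posSemidef_diag h2 i
    rw [Matrix.sub_apply, Matrix.smul_apply, ← e1, Matrix.one_apply_eq, smul_eq_mul, mul_one,
      ← Complex.ofReal_sub, Complex.ofReal_re] at e2
    linarith
  have a2 : ∀ c, ∑ i, ‖B c i‖ ^ 2 ≤ 1 / lam := by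
    intro c
    have e0 := h1.mul_mul_conjTranspose_same B
    have e1 : B * (K - (lam : ℂ) • (1 : Matrix (Fin n) (Fin n) ℂ)) * Bᴴ = 1 - (lam : ℂ) • (B * Bᴴ) := by
      have e2 : B * K * Bᴴ = 1 := by
        rw [hs.hK]
        have : B * (Bi * Biᴴ) * Bᴴ = (B * Bi) * (B * Bi)ᴴ := by
          rw [Matrix.conjTranspose_mul]; simp only [Matrix.mul_assoc]
        rw [this, hs.BBi]; simp
      rw [Matrix.mul_sub, Matrix.sub_mul, e2, Matrix.mul_smul, Matrix.smul_mul, Matrix.mul_one]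
    rw [e1] at e0
    have e3 := posSemidef_diag e0 c
    have e4 : (B * Bᴴ) c c = ((∑ i, ‖B c i‖ ^ 2 : ℝ) : ℂ) := by
      rw [Matrix.mul_apply]
      push_cast
      refine Finset.sum_congr rfl fun i _ => ?_
      rw [Matrix.conjTranspose_apply, ← starRingEnd_apply, Complex.mul_conj,
        Complex.normSq_eq_norm_sq]
      push_cast; rfl
    rw [Matrix.sub_apply, Matrix.smul_apply, e4, Matrix.one_apply_eq, smul_eq_mul,
      ← Complex.ofReal_mul, ← Complex.ofReal_one, ← Complex.ofReal_sub, Complex.ofReal_re] at e3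
    rw [le_div_iff₀ hlam]
    linarith
  constructor
  · intro i j
    rw [hs.hK, Matrix.mul_apply]
    refine (norm_sum_le _ _).trans ?_
    have : ∀ c, ‖Bi i c * Biᴴ c j‖ ≤ (‖Bi i c‖ ^ 2 + ‖Bi j c‖ ^ 2) / 2 := by
      intro c
      rw [norm_mul, Matrix.conjTranspose_apply, norm_star]
      nlinarith [sq_nonneg (‖Bi i c‖ - ‖Bi j c‖)]
    refine (Finset.sum_le_sum fun c _ => this c).trans ?_
    rw [← Finset.sum_div, Finset.sum_add_distrib]
    linarith [a1 i, a1 j]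
  · intro i j
    rw [hs.hG, Matrix.mul_apply]
    refine (norm_sum_le _ _).trans ?_
    have : ∀ c, ‖Bᴴ i c * B c j‖ ≤ 1 / lam := by
      intro c
      rw [norm_mul, Matrix.conjTranspose_apply, norm_star]
      have b1 : ‖B c i‖ ^ 2 ≤ 1 / lam := (Finset.single_le_sum (f := fun i => ‖B c i‖ ^ 2)
        (fun _ _ => sq_nonneg _) (Finset.mem_univ i)).trans (a2 c)
      have b2 : ‖B c j‖ ^ 2 ≤ 1 / lam := (Finset.single_le_sum (f := fun i => ‖B c i‖ ^ 2)
        (fun _ _ => sq_nonneg _) (Finset.mem_univ j)).trans (a2 c)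
      nlinarith [sq_nonneg (‖B c i‖ - ‖B c j‖)]
    refine (Finset.sum_le_sum fun c _ => this c).trans ?_
    simp

variable {O : Opens (Cm n)}

/-- complex Hessian of the real part of a real element of the ring -/
lemma cHess_of_real (F : Sm O) (u : Cm n → ℝ) (hu : ∀ x : O, ((u x : ℝ) : ℂ) = ev x F) (x : O)
    (j k : Fin n) : cHess u x j k = ev x (d j (db k F)) := by
  have h1 : (fun y => ((u y : ℝ) : ℂ)) =ᶠ[𝓝 (x : Cm n)] fn F := by
    filter_upwards [O.isOpen.mem_nhds x.2] with y hy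
    have := hu ⟨y, hy⟩
    rw [ev_apply] at this
    exact this
  have h2 : ev x (d j (db k F)) = dz j (dzb k (fn F)) x := by
    rw [ev_d, INT.dz_congr (db_fn_ev k _ x.2)]
  rw [h2]
  exact INT.dz_congr (INT.dzb_congr' h1)

lemma dz_of_real (F : Sm O) (u : Cm n → ℝ) (hu : ∀ x : O, ((u x : ℝ) : ℂ) = ev x F) (x : O)
    (j : Fin n) : dz j (fun y => ((u y : ℝ) : ℂ)) x = ev x (d j F) := by
  have h1 : (fun y => ((u y : ℝ) : ℂ)) =ᶠ[𝓝 (x : Cm n)] fn F := by
    filter_upwards [O.isOpen.mem_nhds x.2] with y hy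
    have := hu ⟨y, hy⟩
    rw [ev_apply] at this
    exact this
  rw [ev_d]
  exact INT.dz_congr h1

lemma smooth_of_real (F : Sm O) (u : Cm n → ℝ) (hu : ∀ x : O, ((u x : ℝ) : ℂ) = ev x F) (x : O) :
    ContDiffAt ℝ ∞ u x := by
  have h1 : u =ᶠ[𝓝 (x : Cm n)] fun y => (fn F y).re := by
    filter_upwards [O.isOpen.mem_nhds x.2] with y hy
    have := hu ⟨y, hy⟩
    rw [ev_apply] at this
    have h2 := congrArg Complex.re this
    simpa using h2
  exact (Complex.reCLM.contDiff.contDiffAt.comp _ (fn_smooth F x.2)).congr_of_eventuallyEq h1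

/-- trace of the complex Hessian against a matrix -/
lemma trace_cHess (GG : Mt n (Sm O)) (F : Sm O) (u : Cm n → ℝ)
    (hu : ∀ x : O, ((u x : ℝ) : ℂ) = ev x F) (x : O) :
    (evM x GG * cHess u x).trace = ev x (∑ a, ∑ b, GG b a * d a (db b F)) := by
  simp only [map_sum, map_mul, Matrix.trace, Matrix.diag_apply, Matrix.mul_apply,
    cHess_of_real F u hu, evM_apply]
  exact Finset.sum_comm


/-- the local Calabi estimate, assuming its scalar half -/
theorem calabi_of_cutoff (hcut : CutoffStatement) : CalabiStatement := by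
  intro n p r R lam Lam C₀ hr hrR hlam
  obtain ⟨β, hβ1, hβL, hβl, hβC⟩ : ∃ β : ℝ, 1 ≤ β ∧ Lam ≤ β ∧ n * (1 / lam) ≤ β ∧ C₀ ≤ β :=
    ⟨max 1 (max Lam (max (n * (1 / lam)) C₀)), le_max_left _ _,
      (le_max_left _ _).trans (le_max_right _ _),
      ((le_max_left _ _).trans (le_max_right _ _)).trans (le_max_right _ _),
      ((le_max_right _ _).trans (le_max_right _ _)).trans (le_max_right _ _)⟩
  have hβ0 : 0 ≤ β := zero_le_one.trans hβ1
  have hn : (0 : ℝ) ≤ n := Nat.cast_nonneg n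
  obtain ⟨C1, hC10, hC1⟩ := error_bound n β hβ1
  obtain ⟨Bd, hB2, hBC, hBβ, hBT, hBL⟩ : ∃ Bd : ℝ, 2 ≤ Bd ∧ C1 ≤ Bd ∧ β ≤ Bd ∧
      n * β * (n * β) ≤ Bd ∧ n * β * (n * (β + β)) ≤ Bd := by
    refine ⟨2 + C1 + β + n * β * (n * β) + n * β * (n * (β + β)), ?_, ?_, ?_, ?_, ?_⟩ <;>
    · have h1 : 0 ≤ n * β * (n * β) := by positivity
      have h2 : 0 ≤ n * β * (n * (β + β)) := by positivity
      linarith
  obtain ⟨Cc, hCc⟩ := hcut n p r R Bd hr hrR
  refine ⟨n * ((n * (β * (n * (n * (β * (1 + |Cc|)) * β)))) * β), ?_⟩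
  intro K Θ hKs hKh hKl hKL hKk hR hTs hT hdT z hz i j k
  let O : Opens (Cm n) := ⟨Metric.ball p R, Metric.isOpen_ball⟩
  have hpd : ∀ x ∈ O, (K x).PosDef := by
    intro x hx
    have h1 := hKl x hx
    have h2 : ((lam : ℂ) • (1 : Matrix (Fin n) (Fin n) ℂ)).PosDef :=
      Matrix.PosDef.one.smul (by exact_mod_cast hlam)
    have h3 := h2.add_posSemidef h1
    rwa [add_sub_cancel] at h3
  have hD : Data O K Θ :=
    { hKs := fun i j x hx => hKs x hx i j
      hKd := hpd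
      hKk := fun x hx i j k => hKk x hx i j k
      hTs := fun i j x hx => hTs x hx i j
      hR := fun x hx => hR x hx }
  -- `Θ` is Hermitian
  have hTh : ∀ x ∈ O, (Θ x).IsHermitian := by
    intro x hx
    have h1 := hR x hx
    have h2 : Θ x = cHess (fun y => Real.log (K y).det.re) x - K x := by rw [h1]; abel
    rw [h2]
    refine (Vale.Agent.P272.K.C2.cHess_isHermitian ?_).sub (hKh x hx)
    have h3 : ContDiffAt ℝ ∞ (fun y => (K y).det) x := C2.MC.det (fun i j => hKs x hx i j)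
    have h4 : ContDiffAt ℝ ∞ (fun y => (K y).det.re) x :=
      Complex.reCLM.contDiff.contDiffAt.comp x h3
    exact (h4.log (hD.det_re_pos hx).ne').of_le (WithTop.coe_le_coe.2 le_top)
  have hTT : hD.TTᴴ = hD.TT := evM_ext fun x => by
    rw [evM_conjTranspose, hD.ev_TT, (hTh x x.2).eq]
  have hdTe : ∀ (x : O) (i p q : Fin n), evM x (mD (der (W O) i) hD.TT) p q =
      dz i (fun y => Θ y p q) x := by
    intro x i p q
    have : hD.TT p q = Sm.mk (fun z => Θ z p q) (hD.hTs p q) := by unfold Data.TT; rfl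
    rw [evM_apply, mD_apply, der_apply, W_d, this, ev_d_mk]
  have hdT' : ∀ (x : O) (i : Fin n), EB (evM x (mD (der (W O) i) hD.TT)) β := fun x i p q => by
    rw [hdTe]; exact (hdT x x.2 p q i).trans hβC
  have hdbT' : ∀ (x : O) (i : Fin n), EB (evM x (mD (derb (W O) i) hD.TT)) β := fun x i p q => by
    have h1 : mD (derb (W O) i) hD.TT = (mD (der (W O) i) hD.TT)ᴴ := by
      conv_lhs => rw [← hTT]
      rw [mD_der, mD_derb, (W O).Db_conjTranspose]
    rw [h1, evM_conjTranspose, Matrix.conjTranspose_apply, norm_star]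
    exact hdT' x i q p
  have hsq : ∀ x : O, ∃ B Bi : Mt n ℂ, Sq (K x)⁻¹ (K x) B Bi := fun x => exists_Sq (hpd x x.2)
  have hKb : ∀ x : O, EB (K x) β ∧ EB (K x)⁻¹ β := fun x => by
    obtain ⟨B, Bi, hs⟩ := hsq x
    obtain ⟨h1, h2⟩ := entries_le hlam (hKl x x.2) (hKL x x.2) hs
    exact ⟨h1.mono hβL, h2.mono hβl⟩
  have hTb : ∀ x : O, EB (Θ x) β := fun x p q => (hT x x.2 p q).trans hβC
  -- the functions
  have hSu : ∀ x : O, ((hD.S x : ℝ) : ℂ) = ev x hD.SS := fun x => by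
    obtain ⟨B, Bi, hs⟩ := hsq x
    rw [Data.S, ← ev_apply, hD.ev_SS hs, Complex.ofReal_re]
  have hSn : ∀ (x : O) (B Bi : Mt n ℂ), Sq (K x)⁻¹ (K x) B Bi →
      hD.S x = ‖Ph B Bi (hD.thx x)‖ ^ 2 := fun x B Bi hs => by
    have h1 := hSu x
    rw [hD.ev_SS hs] at h1
    exact_mod_cast h1
  have hPu : ∀ x : O, (((fn hD.PN x).re : ℝ) : ℂ) = ev x hD.PN := fun x => by
    obtain ⟨B, Bi, hs⟩ := hsq x
    rw [← ev_apply, hD.ev_PN hs, Complex.ofReal_re]
  have hPn : ∀ (x : O) (B Bi : Mt n ℂ), Sq (K x)⁻¹ (K x) B Bi →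
      (fn hD.PN x).re = ∑ e, ‖Ph B Bi (∑ a, B e a • hD.Xx x a)‖ ^ 2
      + ∑ e, ‖Ph B Bi (∑ a, conj (B e a) • hD.Yx x a)‖ ^ 2 := fun x B Bi hs => by
    have h1 := hPu x
    rw [hD.ev_PN hs] at h1
    exact_mod_cast h1
  have htr : ∀ x : O, (((K x).trace.re : ℝ) : ℂ) = ev x hD.KK.trace := fun x => by
    rw [ev_trace, hD.ev_KK]
    apply Complex.ext
    · simp
    · have : star (K x).trace = (K x).trace := by
        rw [← Matrix.trace_conjTranspose, (hpd x x.2).isHermitian.eq]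
      have h2 := congrArg Complex.im this
      simp only [Complex.star_def, Complex.conj_im] at h2
      simp only [Complex.ofReal_im]
      linarith
  have herr : ∀ (x : O) (B Bi : Mt n ℂ), Sq (K x)⁻¹ (K x) B Bi →
      ‖ev x (∑ a, ∑ b, hD.GG b a * d a (db b hD.SS)) - ev x hD.PN‖ ≤ C1 * (1 + hD.S x) :=
    fun x B Bi hs => by
      rw [hD.boch_eq x, hSn x B Bi hs]
      exact hC1 _ _ _ B Bi _ _ _ hs (hKb x).2 (hKb x).1 (hTb x) (hdT' x) (hdbT' x)
  have hlap : ∀ (x : O) (B Bi : Mt n ℂ), Sq (K x)⁻¹ (K x) B Bi →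
      hD.S x - n * β * (n * (β + β)) ≤
        n * β * (ev x (∑ a, ∑ b, hD.GG b a * d a (db b hD.KK.trace))).re := by
    intro x B Bi hs
    have h1 : ∑ a, ∑ b, hD.GG b a * d a (db b hD.KK.trace) = (hD.KK + hD.TT).trace
      + ∑ a, ∑ b, hD.GG b a * (hD.th a * hD.KK * hD.thb b).trace := hD.ric.lap_trace
    obtain ⟨τ, hτ1, hτ2⟩ := hs.trace_ge (hKb x).2 (hD.thx x)
    have h2 : ev x (∑ a, ∑ b, hD.GG b a * d a (db b hD.KK.trace)) = (K x + Θ x).trace + (τ : ℂ) := by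
      rw [h1, map_add (ev x), ev_trace, evM_add, hD.ev_KK, hD.ev_TT, ← hτ1]
      congr 1
      simp only [map_sum, map_mul, ev_trace, evM_mul, hD.ev_KK, hD.ev_thb]
      refine Finset.sum_congr rfl fun a _ => Finset.sum_congr rfl fun b _ => ?_
      rw [← evM_apply, hD.ev_GG, ← hD.thx_eq]
    have h3 : ‖(K x + Θ x).trace‖ ≤ n * (β + β) := ((hKb x).1.add (hTb x)).trace
    have h4 : -(n * (β + β)) ≤ ((K x + Θ x).trace).re :=
      (neg_le_neg h3).trans (neg_le_of_abs_le (Complex.abs_re_le_norm _))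
    rw [h2, Complex.add_re, Complex.ofReal_re, mul_add]
    rw [← hSn x B Bi hs] at hτ2
    have h5 : n * β * -(n * (β + β)) ≤ n * β * ((K x + Θ x).trace).re :=
      mul_le_mul_of_nonneg_left h4 (by positivity)
    linarith
  have hgrad : ∀ (x : O) (B Bi : Mt n ℂ), Sq (K x)⁻¹ (K x) B Bi →
      (∑ i, ∑ j, (K x)⁻¹ j i * ev x (d i hD.SS) * conj (ev x (d j hD.SS))).re ≤
        2 * hD.S x * (fn hD.PN x).re := by
    intro x B Bi hs
    rw [hSn x B Bi hs, hPn x B Bi hs]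
    exact hs.grad (hD.thx x) (hD.Xx x) (hD.Yx x) _ (hD.ev_dS hs)
  have hS0 : ∀ x : O, 0 ≤ hD.S x := fun x => by
    obtain ⟨B, Bi, hs⟩ := hsq x
    rw [hSn x B Bi hs]; positivity
  have hP0 : ∀ x : O, 0 ≤ (fn hD.PN x).re := fun x => by
    obtain ⟨B, Bi, hs⟩ := hsq x
    rw [hPn x B Bi hs]; positivity
  have key := hCc (fun z => (K z)⁻¹) hD.S (fun z => n * β * (K z).trace.re)
    (fun z => (fn hD.PN z).re)
  have hmain : ∀ z ∈ Metric.closedBall p r, hD.S z ≤ Cc := by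
    refine key ?_ ?_ ?_ ?_ ?_ ?_ ?_ ?_ ?_ ?_
    · exact fun z hz => (hpd z hz).inv.posSemidef
    · exact fun z hz i j => ((hKb ⟨z, hz⟩).2 i j).trans hBβ
    · exact fun z hz => smooth_of_real hD.SS hD.S hSu ⟨z, hz⟩
    · exact fun z hz => contDiffAt_const.mul (smooth_of_real hD.KK.trace (fun y => (K y).trace.re) htr ⟨z, hz⟩)
    · exact fun z hz => hS0 ⟨z, hz⟩
    · exact fun z hz => hP0 ⟨z, hz⟩
    · intro z hz
      have h1 := (hKb ⟨z, hz⟩).1.trace
      have h2 : |(K z).trace.re| ≤ n * β := (Complex.abs_re_le_norm _).trans h1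
      rw [abs_mul, abs_of_nonneg (by positivity : 0 ≤ (n : ℝ) * β)]
      exact (mul_le_mul_of_nonneg_left h2 (by positivity)).trans hBT
    · intro z hz
      obtain ⟨B, Bi, hs⟩ := hsq ⟨z, hz⟩
      have h2 := herr ⟨z, hz⟩ B Bi hs
      have h3 := trace_cHess hD.GG hD.SS hD.S hSu ⟨z, hz⟩
      rw [hD.ev_GG] at h3
      have h4 : ev ⟨z, hz⟩ hD.PN = (((fn hD.PN z).re : ℝ) : ℂ) := (hPu ⟨z, hz⟩).symm
      rw [← h3, h4] at h2
      have h5 := (Complex.abs_re_le_norm _).trans h2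
      rw [Complex.sub_re, Complex.ofReal_re] at h5
      have h6 := neg_le_of_abs_le h5
      have h7 := hS0 ⟨z, hz⟩
      have h8 : C1 * (1 + hD.S z) ≤ Bd * (hD.S z + 1) := by
        rw [add_comm]
        exact mul_le_mul_of_nonneg_right hBC (by linarith)
      simp only at h6 h7 h8 ⊢
      linarith
    · intro z hz
      obtain ⟨B, Bi, hs⟩ := hsq ⟨z, hz⟩
      have h2 := hlap ⟨z, hz⟩ B Bi hs
      have h3 := trace_cHess hD.GG hD.KK.trace (fun y => (K y).trace.re) htr ⟨z, hz⟩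
      rw [hD.ev_GG] at h3
      have hsm : ContDiffAt ℝ 2 (fun y => (K y).trace.re) z :=
        (smooth_of_real hD.KK.trace (fun y => (K y).trace.re) htr ⟨z, hz⟩).of_le (WithTop.coe_le_coe.2 le_top)
      have h4 := Vale.Agent.P272.K.C2.cHess_const_mul (n * β) hsm
      rw [h4, Matrix.mul_smul, Matrix.trace_smul]
      rw [← h3] at h2
      rw [smul_eq_mul, Complex.re_ofReal_mul]
      linarith
    · intro z hz
      obtain ⟨B, Bi, hs⟩ := hsq ⟨z, hz⟩
      have h2 := hgrad ⟨z, hz⟩ B Bi hs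
      have h3 : ∀ i, dz i (fun y => ((hD.S y : ℝ) : ℂ)) z = ev ⟨z, hz⟩ (d i hD.SS) :=
        fun i => dz_of_real hD.SS hD.S hSu ⟨z, hz⟩ i
      simp only [h3]
      refine h2.trans ?_
      exact mul_le_mul_of_nonneg_right (mul_le_mul_of_nonneg_right hB2 (hS0 ⟨z, hz⟩))
        (hP0 ⟨z, hz⟩)
  have hzO : z ∈ O := Metric.closedBall_subset_ball hrR hz
  obtain ⟨B, Bi, hs⟩ := hsq ⟨z, hzO⟩
  have h1 : hD.S z ≤ Cc := hmain z hz
  have h2 : ‖Ph B Bi (hD.thx ⟨z, hzO⟩)‖ ≤ 1 + |Cc| := by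
    have h3 := hSn ⟨z, hzO⟩ B Bi hs
    simp only at h3
    rw [h3] at h1
    nlinarith [norm_nonneg (Ph B Bi (hD.thx ⟨z, hzO⟩)), le_abs_self Cc,
      sq_nonneg (‖Ph B Bi (hD.thx ⟨z, hzO⟩)‖ - 1)]
  have h3 := hs.entry_le hβ1 (hKb ⟨z, hzO⟩).2 (hKb ⟨z, hzO⟩).1 (hD.thx ⟨z, hzO⟩) k
  have h4 := (h3.mul (hKb ⟨z, hzO⟩).1) i j
  have h5 : dz k (fun y => K y i j) z = (hD.thx ⟨z, hzO⟩ k * K z) i j := by
    have h6 := congrArg (evM (⟨z, hzO⟩ : O)) (hD.kstruct.dK k)
    rw [evM_mul, hD.ev_KK] at h6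
    have h7 := congrFun (congrFun h6 i) j
    rw [evM_apply, mD_apply, der_apply, W_d, hD.ev_D_KK] at h7
    rw [h7, ← hD.thx_eq]
  rw [h5]
  refine h4.trans ?_
  have h8 : (n : ℝ) * (β * (n * (n * (β * ‖Ph B Bi (hD.thx ⟨z, hzO⟩)‖) * β))) ≤
      n * (β * (n * (n * (β * (1 + |Cc|)) * β))) := by gcongr
  gcongr

end Vale.Agent.P272.K.C3
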